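import Vale.Agent.P157.Parisi.Statements
import Vale.Agent.P168.Cascade.Shapes

/-!
Every function of a tree shape is a combination of correlations of independent sign marks.
-/

noncomputable section

open MeasureTheory ProbabilityTheory Finset
open scoped BigOperators

namespace Vale.Agent.P157.Parisi.Cont

open Vale.Agent.P168 (Shape shapeMarks shapeRep shapeInit shapeProb shapeClass extProb padded)
open Vale.Agent.P168.Cascade

/-- The restriction of a shape along a map of replicas. -/
def restr {r n m : ℕ} (e : Fin n → Fin m) (v : Shape r m) : Shape r n := fun a b => v (e a) (e b)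

/-- `R` is the correlation of bounded functions of the marks. -/
def Rep {r n : ℕ} (R : Shape r n → ℝ) : Prop :=
  ∃ (β : Type) (_ : MeasurableSpace β) (μ : Measure β) (s : Fin n → (Fin r → β) → ℝ),
    IsProbabilityMeasure μ ∧ (∀ a, Measurable (s a)) ∧ (∀ a η, |s a η| ≤ 1) ∧
      ∀ (m : ℕ) (e : Fin n → Fin m), ∀ v : Shape r m, IsTree v →
        ∫ ω, ∏ a, s a (shapeMarks v ω (e a)) ∂tableLaw μ r m = R (restr e v)

variable {r n : ℕ}

lemma logW_one {β : Type} [MeasurableSpace β] (ν : Measure β) [IsProbabilityMeasure ν]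
    {m : Fin r → ℝ} (hm : Exps m) {k : ℕ} (v : Shape r k) (ω : Fin r → Fin k → β) :
    logW ν m (fun _ => (1 : ℝ)) v ω = 0 := by
  have hY : Bdd (1 : ℝ) (fun _ : Fin r → β => (1 : ℝ)) :=
    ⟨one_pos, measurable_const, fun _ => by simp⟩
  have hc : ∀ (p : ℕ) (ρ : Fin r → β), cond ν m (fun _ => (1 : ℝ)) p ρ = 1 := fun p ρ => by
    have := cond_mem ν hm hY p ρ
    rw [inv_one] at this
    linarith [this.1, this.2]
  simp [logW, hc]

lemma rep_one : Rep (fun _ : Shape r n => (1 : ℝ)) :=
  ⟨Unit, inferInstance, Measure.dirac (), fun _ _ => 1, inferInstance, fun _ => measurable_const,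
    fun _ _ => by simp, fun m e v _ => by simp⟩

lemma Rep.mul (hT : TiltFactorStmt) {m₀ : Fin r → ℝ} (hm : Exps m₀) {R R' : Shape r n → ℝ}
    (h : Rep R) (h' : Rep R') : Rep (fun v => R v * R' v) := by
  classical
  obtain ⟨β, _, μ, s, _, hs, hsb, hR⟩ := h
  obtain ⟨γ, _, μ', s', _, hs', hsb', hR'⟩ := h'
  refine ⟨β × γ, inferInstance, μ.prod μ',
    fun a η => s a (fun i => (η i).1) * s' a (fun i => (η i).2), inferInstance, fun a => ?_,
    fun a η => ?_, fun m e v hv => ?_⟩
  · exact ((hs a).comp (measurable_pi_lambda _ fun i => (measurable_pi_apply i).fst)).mul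
      ((hs' a).comp (measurable_pi_lambda _ fun i => (measurable_pi_apply i).snd))
  · rw [abs_mul]
    exact mul_le_one₀ (hsb a _) (abs_nonneg _) (hsb' a _)
  · let g : Fin m → (Fin r → β) → ℝ := fun b η => ∏ a ∈ univ.filter (fun a => e a = b), s a η
    let g' : Fin m → (Fin r → γ) → ℝ := fun b η => ∏ a ∈ univ.filter (fun a => e a = b), s' a η
    have hb : ∀ (δ : Type) (t : Fin n → (Fin r → δ) → ℝ), (∀ a η, |t a η| ≤ 1) → ∀ b η,
        |∏ a ∈ univ.filter (fun a => e a = b), t a η| ≤ 1 := fun δ t ht b η => by
      rw [abs_prod]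
      exact prod_le_one (fun a _ => abs_nonneg _) fun a _ => ht a η
    have h1 := hT β γ μ μ' r m m₀ hm 1 (fun _ => 1) (fun _ => 1)
      ⟨one_pos, measurable_const, fun _ => by simp⟩ ⟨one_pos, measurable_const, fun _ => by simp⟩
      g g' (fun b => Finset.measurable_prod _ fun a _ => hs a)
      (fun b => Finset.measurable_prod _ fun a _ => hs' a) (hb β s hsb) (hb γ s' hsb') v hv
    simp only [mul_one, logW_one μ hm, logW_one μ' hm, logW_one (μ.prod μ') hm, Real.exp_zero,
      one_mul] at h1
    have ef : ∀ {δ : Type} (t : Fin n → (Fin r → δ) → ℝ) (ρ : Fin m → Fin r → δ),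
        ∏ b, ∏ a ∈ univ.filter (fun a => e a = b), t a (ρ b) = ∏ a, t a (ρ (e a)) := by
      intro δ t ρ
      rw [← prod_fiberwise univ e fun a => t a (ρ (e a))]
      exact prod_congr rfl fun b _ => prod_congr rfl fun a ha => by rw [(mem_filter.1 ha).2]
    simp only [g, g', ← prod_mul_distrib] at h1
    beta_reduce
    rw [← hR m e v hv, ← hR' m e v hv]
    calc ∫ ω, ∏ a, (s a (fun i => (shapeMarks v ω (e a) i).1) *
          s' a fun i => (shapeMarks v ω (e a) i).2) ∂tableLaw (μ.prod μ') r m
        = _ := integral_congr_ae (Filter.Eventually.of_forall fun ω =>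
          (ef (fun a (η : Fin r → β × γ) => s a (fun i => (η i).1) * s' a fun i => (η i).2)
            (shapeMarks v ω)).symm)
      _ = _ := h1.trans (congrArg₂ (· * ·)
          (integral_congr_ae (Filter.Eventually.of_forall fun ω => ef s _))
          (integral_congr_ae (Filter.Eventually.of_forall fun ω => ef s' _)))

/-- A fair coin. -/
def coin : Measure Bool := (PMF.uniformOfFintype Bool).toMeasure

/-- Its sign. -/
def sign (b : Bool) : ℝ := if b then 1 else -1

lemma rep_single (a b : Fin n) (p : Fin r) :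
    Rep (fun v : Shape r n => if p.val + 1 ≤ (v a b).val then (1 : ℝ) else 0) := by
  classical
  have hc : IsProbabilityMeasure coin := PMF.toMeasure.isProbabilityMeasure _
  have hsq : ∀ x, sign x * sign x = 1 := fun x => by cases x <;> simp [sign]
  refine ⟨Bool, inferInstance, coin,
    fun c η => (if c = a then sign (η p) else 1) * (if c = b then sign (η p) else 1), hc,
    fun c => ?_, fun c η => ?_, fun m e v hv => ?_⟩
  · exact (Measurable.of_discrete (f := fun x : Bool =>
      (if c = a then sign x else 1) * (if c = b then sign x else 1))).comp (measurable_pi_apply p)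
  · beta_reduce
    cases η p <;> split_ifs <;> simp [sign]
  · simp only [prod_mul_distrib, prod_ite_eq', mem_univ, if_true, shapeMarks]
    set x := shapeRep v (p.val + 1) (e a)
    set y := shapeRep v (p.val + 1) (e b)
    have hp : p.val + 1 ≤ r := p.isLt
    have hiff : p.val + 1 ≤ (v (e a) (e b)).val ↔ x = y := by
      have hm : ∀ i j : Fin m, j ∈ shapeClass v (p.val + 1) i ↔ p.val + 1 ≤ (v i j).val :=
        fun i j => by rw [mem_class, if_pos hp]
      rw [← hm]
      constructor
      · exact fun h => (hv.rep_congr h).symm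
      · intro h
        have h1 := hv.rep_mem (p.val + 1) (e a)
        have h2 := hv.rep_mem (p.val + 1) (e b)
        rw [← hv.class_eq h1, show shapeRep v (p.val + 1) (e a) = y from h,
          show y = shapeRep v (p.val + 1) (e b) from rfl, hv.class_eq h2]
        exact hv.self_mem _ _
    refine Eq.trans (b := if x = y then (1 : ℝ) else 0) ?_ (if_congr hiff.symm rfl rfl)
    by_cases hxy : x = y
    · rw [if_pos hxy, ← hxy]
      simp [hsq]
    · rw [if_neg hxy]
      have e1 := integral_comp_eval (μ := fun _ : Fin r => Measure.pi fun _ : Fin m => coin)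
        (i := p) (f := fun z : Fin m → Bool => sign (z x) * sign (z y))
        Measurable.of_discrete.aestronglyMeasurable
      refine e1.trans ?_
      have e2 : ∀ z : Fin m → Bool, sign (z x) * sign (z y) =
          ∏ c, (if c = x then sign (z c) else if c = y then sign (z c) else 1) := fun z => by
        rw [prod_eq_mul x y hxy (fun c _ hc => by simp [hc.1, hc.2]) (by simp) (by simp),
          if_pos rfl, if_neg (Ne.symm hxy), if_pos rfl]
      refine (integral_congr_ae (Filter.Eventually.of_forall e2)).trans ?_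
      rw [integral_fintype_prod_eq_prod (f := fun c (z : Bool) =>
        if c = x then sign z else if c = y then sign z else 1)]
      refine prod_eq_zero (mem_univ x) ?_
      simp only [↓reduceIte, coin]
      rw [PMF.integral_eq_sum]
      simp [sign]

/-- Every function of a shape is a combination of correlations. -/
lemma mem_span_rep (hT : TiltFactorStmt) {m₀ : Fin r → ℝ} (hm : Exps m₀) (G : Shape r n → ℝ) :
    G ∈ Submodule.span ℝ {R : Shape r n → ℝ | Rep R} := by
  classical
  let M : Submonoid (Shape r n → ℝ) :=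
    { carrier := {R | Rep R}
      mul_mem' := fun h h' => h.mul hT hm h'
      one_mem' := rep_one }
  suffices h : G ∈ Algebra.adjoin ℝ (M : Set (Shape r n → ℝ)) by
    rw [← Subalgebra.mem_toSubmodule, Algebra.adjoin_eq_span, Submonoid.closure_eq] at h
    exact h
  set A := Algebra.adjoin ℝ (M : Set (Shape r n → ℝ))
  have hI : ∀ (a b : Fin n) (q : ℕ), (fun v : Shape r n => if q ≤ (v a b).val then (1 : ℝ) else 0)
      ∈ A := by
    intro a b q
    rcases Nat.eq_zero_or_pos q with rfl | hq
    · simpa [Pi.one_def] using A.one_mem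
    by_cases hr : q ≤ r
    · let R : Shape r n → ℝ := fun v => if (q - 1) + 1 ≤ (v a b).val then (1 : ℝ) else 0
      have hR : R ∈ (M : Set (Shape r n → ℝ)) := rep_single a b ⟨q - 1, by omega⟩
      have := Algebra.subset_adjoin (R := ℝ) hR
      simpa [R, Nat.sub_add_cancel hq] using this
    · have : (fun v : Shape r n => if q ≤ (v a b).val then (1 : ℝ) else 0) = 0 :=
        funext fun v => if_neg (by have := (v a b).isLt; omega)
      rw [this]
      exact A.zero_mem
  have hG : G = ∑ v₀ : Shape r n, G v₀ • ∏ a : Fin n, ∏ b : Fin n,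
      ((fun v : Shape r n => if (v₀ a b).val ≤ (v a b).val then (1 : ℝ) else 0) -
        fun v : Shape r n => if (v₀ a b).val + 1 ≤ (v a b).val then (1 : ℝ) else 0) := by
    funext v
    simp only [Finset.sum_apply, Pi.smul_apply, Finset.prod_apply, Pi.sub_apply, smul_eq_mul]
    rw [sum_eq_single v]
    · simp
    · intro v₀ _ hne
      obtain ⟨a, ha⟩ := Function.ne_iff.1 hne
      obtain ⟨b, hb⟩ := Function.ne_iff.1 ha
      refine mul_eq_zero_of_right _ (prod_eq_zero (mem_univ a) (prod_eq_zero (mem_univ b) ?_))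
      have : (v₀ a b).val ≠ (v a b).val := fun h => hb (Fin.ext h)
      split_ifs <;> first | omega | simp
    · simp
  rw [hG]
  exact Subalgebra.sum_mem _ fun v₀ _ => A.smul_mem
    (Subalgebra.prod_mem _ fun a _ => Subalgebra.prod_mem _ fun b _ =>
      A.sub_mem (hI a b _) (hI a b _)) _

lemma padded_le_succ {m : Fin r → ℝ} (hm : Exps m) {p : ℕ} (hp : p ≤ r) :
    padded m p ≤ padded m (p + 1) ∧ 0 ≤ padded m (p + 1) := by
  rcases Nat.lt_or_ge p r with h | h
  · rw [padded_succ m ⟨p, h⟩]
    refine ⟨?_, (hm.pos _).le⟩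
    rcases p with _ | p
    · rw [padded_zero]; exact (hm.pos _).le
    · rw [padded_succ m ⟨p, by omega⟩]
      exact (hm.mono (show (⟨p, _⟩ : Fin r) < ⟨p + 1, h⟩ from Nat.lt_succ_self p)).le
  · obtain rfl : p = r := le_antisymm hp h
    rw [padded_top]
    refine ⟨?_, zero_le_one⟩
    rcases p with _ | p
    · rw [padded_zero]; exact zero_le_one
    · rw [padded_succ m ⟨p, Nat.lt_succ_self p⟩]
      exact (hm.lt_one _).le

lemma shapeProb_nonneg {m : Fin r → ℝ} (hm : Exps m) :
    ∀ {k : ℕ} (v : Shape r k), 0 ≤ shapeProb m k v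
  | 0, _ => zero_le_one
  | k + 1, v => by
    show 0 ≤ shapeProb m k (shapeInit v) * extProb m v
    by_cases h0 : shapeProb m k (shapeInit v) = 0
    · rw [h0, zero_mul]
    refine mul_nonneg (shapeProb_nonneg hm _) ?_
    have hv := isTree_of_prob h0
    unfold extProb
    split_ifs with h1 h2 h3
    · exact zero_le_one
    · refine div_nonneg ?_ (Nat.cast_nonneg _)
      set p := (v (Fin.last k) h3.choose.castSucc).val
      obtain ⟨hle, hnn⟩ := padded_le_succ hm (p := p) (Nat.le_of_lt_succ (Fin.isLt _))
      set j := ((shapeClass (shapeInit v) p h3.choose).image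
        (shapeClass (shapeInit v) (p + 1))).card
      have hj : (1 : ℝ) ≤ j := by
        exact_mod_cast card_pos.2 ⟨_, mem_image_of_mem _ (hv.self_mem p h3.choose)⟩
      calc (0 : ℝ) ≤ padded m (p + 1) - padded m p := sub_nonneg.2 hle
        _ ≤ (j : ℝ) * padded m (p + 1) - padded m p :=
          sub_le_sub_right (le_mul_of_one_le_left hnn hj) _
    · exact le_rfl
    · exact le_rfl

end Vale.Agent.P157.Parisi.Cont
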