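import Vale.Agent.P157.Parisi.Cont.Rep
import Vale.Agent.P168.Cascade.MomentLimit

/-!
Tilted replica moments of a cascade as geometric series of untilted ones.
-/

noncomputable section

open MeasureTheory ProbabilityTheory Filter Finset
open scoped BigOperators Topology

namespace Vale.Agent.P157.Parisi.Cont

set_option linter.unusedSectionVars false

open Vale.Agent.P168 (Shape shapeMarks shapeProb cascFilter cascLaw cascSum cascMean CascTree
  treeMoment genNested)
open Vale.Agent.P168.Cascade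

/-- The geometric ratio. -/
def gq (C : ℝ) : ℝ := 1 - (C ^ 2)⁻¹

/-- The coefficients of `x⁻ᴺ` in powers of `1 - x / C`, `N = n + 1`. -/
def coefW (C : ℝ) (n d : ℕ) : ℝ := C⁻¹ ^ (n + 1) * ((d + n).choose n : ℝ)

/-- The error of the truncated series. -/
def tailW (C : ℝ) (n D : ℕ) : ℝ :=
  C⁻¹ ^ (n + 1) *
    (1 / (1 - gq C) ^ (n + 1) - ∑ d ∈ range D, ((d + n).choose n : ℝ) * gq C ^ d)

section Series

variable {C : ℝ} (hC : 1 ≤ C)
include hC

lemma gq_mem : 0 ≤ gq C ∧ gq C < 1 := by
  have hp : (1 : ℝ) ≤ C ^ 2 := one_le_pow₀ hC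
  have h1 : (C ^ 2)⁻¹ ≤ 1 := inv_le_one_of_one_le₀ hp
  have h2 : 0 < (C ^ 2)⁻¹ := inv_pos.2 (by linarith)
  constructor <;> unfold gq <;> linarith

lemma one_sub_div_mem {x : ℝ} (h1 : C⁻¹ ≤ x) (h2 : x ≤ C) :
    0 ≤ 1 - x / C ∧ 1 - x / C ≤ gq C := by
  have hp : 0 < C := by linarith
  have a : x / C ≤ 1 := (div_le_one hp).2 h2
  have b : (C ^ 2)⁻¹ ≤ x / C := by
    rw [sq, mul_inv, div_eq_mul_inv]
    exact mul_le_mul_of_nonneg_right h1 (inv_nonneg.2 hp.le)
  refine ⟨by linarith, ?_⟩
  unfold gq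
  linarith

lemma series_bound (n D : ℕ) {x : ℝ} (h1 : C⁻¹ ≤ x) (h2 : x ≤ C) :
    0 ≤ x⁻¹ ^ (n + 1) - ∑ d ∈ range D, coefW C n d * (1 - x / C) ^ d ∧
      x⁻¹ ^ (n + 1) - ∑ d ∈ range D, coefW C n d * (1 - x / C) ^ d ≤ tailW C n D := by
  obtain ⟨hq0, hq1⟩ := gq_mem hC
  obtain ⟨hu0, hu1⟩ := one_sub_div_mem hC h1 h2
  have hp : 0 < C := by linarith
  have hx : 0 < x := (inv_pos.2 hp).trans_le h1
  set u := 1 - x / C with hu
  have hsq := hasSum_choose_mul_geometric_of_norm_lt_one n (r := gq C)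
    (by rw [Real.norm_eq_abs, abs_of_nonneg hq0]; exact hq1)
  have hsu := hasSum_choose_mul_geometric_of_norm_lt_one n (r := u)
    (by rw [Real.norm_eq_abs, abs_of_nonneg hu0]; linarith)
  have hinv : x⁻¹ ^ (n + 1) = C⁻¹ ^ (n + 1) * (1 / (1 - u) ^ (n + 1)) := by
    rw [hu, sub_sub_cancel, ← one_div_pow, ← mul_pow]
    congr 1
    field_simp
  simp only [coefW, tailW, hinv, mul_assoc, ← mul_sum, ← mul_sub]
  constructor
  · exact mul_nonneg (by positivity)
      (sub_nonneg.2 (sum_le_hasSum (range D) (fun d _ => by positivity) hsu))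
  · refine mul_le_mul_of_nonneg_left ?_ (by positivity)
    have h := sum_le_hasSum (range D) (fun d _ => ?_) (hsq.sub hsu)
    · rw [sum_sub_distrib] at h
      linarith
    · exact sub_nonneg.2 (mul_le_mul_of_nonneg_left (pow_le_pow_left₀ hu0 hu1 d) (Nat.cast_nonneg _))

lemma coefW_nonneg (n d : ℕ) : 0 ≤ coefW C n d := by
  have : 0 < C := by linarith
  unfold coefW
  positivity

lemma tailW_nonneg (n D : ℕ) : 0 ≤ tailW C n D := by
  have h := series_bound hC n D (x := C) ((inv_le_one_of_one_le₀ hC).trans hC) le_rfl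
  exact h.1.trans h.2

lemma tendsto_tailW (n : ℕ) : Tendsto (tailW C n) atTop (𝓝 0) := by
  obtain ⟨hq0, hq1⟩ := gq_mem hC
  have hsq := (hasSum_choose_mul_geometric_of_norm_lt_one n (r := gq C)
    (by rw [Real.norm_eq_abs, abs_of_nonneg hq0]; exact hq1)).tendsto_sum_nat
  have h := (hsq.const_sub (1 / (1 - gq C) ^ (n + 1))).const_mul (C⁻¹ ^ (n + 1))
  rw [sub_self, mul_zero] at h
  exact h

end Series

lemma cascFilter_neBot : ∀ r, (cascFilter r).NeBot
  | 0 => show (pure Fin.elim0 : Filter (Fin 0 → ℕ)).NeBot from inferInstance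
  | r + 1 => by
    refine ⟨fun h => ?_⟩
    have h1 : (∅ : Set (Fin (r + 1) → ℕ)) ∈
        Filter.bind atTop fun n₀ => (cascFilter r).map (Fin.cons n₀) :=
      Filter.empty_mem_iff_bot.2 h
    rw [Filter.mem_bind'] at h1
    obtain ⟨k, hk⟩ := Filter.nonempty_of_mem h1
    simp only [Set.mem_ofPred_eq] at hk
    rw [Filter.mem_map, Set.preimage_empty] at hk
    exact (cascFilter_neBot r).ne (Filter.empty_mem_iff_bot.1 hk)

section Casc

variable {β : Type} [MeasurableSpace β] {r : ℕ}

lemma cascMean_mem {C : ℝ} {Y : (Fin r → β) → ℝ} (hY : Bdd C Y) (m : Fin r → ℝ) {n : Fin r → ℕ}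
    (hn : ∀ i, 0 < n i) {t : CascTree β r n} (ht : GoodTree r n t) :
    C⁻¹ ≤ cascMean m n Y t ∧ cascMean m n Y t ≤ C := by
  have h1 := cascSum_one_pos m hn ht
  have hhi := cascSum_mono (m := m) (Y' := fun _ => C * 1)
    (fun ω => by simpa using (hY.mem ω).2) ht
  rw [cascSum_smul m n (fun _ => 1)] at hhi
  exact ⟨(le_div_iff₀ h1).2 (cascSum_pos hY m hn ht).1, (div_le_iff₀ h1).2 hhi⟩

lemma abs_cascMean_le {g : (Fin r → β) → ℝ} (hg : ∀ ω, |g ω| ≤ 1) (m : Fin r → ℝ)
    {n : Fin r → ℕ} (hn : ∀ i, 0 < n i) {t : CascTree β r n} (ht : GoodTree r n t) :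
    |cascMean m n g t| ≤ 1 := by
  have h1 := cascSum_one_pos m hn ht
  rw [cascMean, abs_div, abs_of_pos h1, div_le_one h1]
  exact abs_cascSum_le hg ht

lemma cascMean_one_sub (m : Fin r → ℝ) {n : Fin r → ℕ} (hn : ∀ i, 0 < n i) {t : CascTree β r n}
    (ht : GoodTree r n t) (Y : (Fin r → β) → ℝ) (C : ℝ) :
    cascMean m n (fun ω => 1 - Y ω / C) t = 1 - cascMean m n Y t / C := by
  have h1 := cascSum_one_pos m hn ht
  have e : cascSum r m n (fun ω => 1 - Y ω / C) t =
      cascSum r m n (fun _ => 1) t + -C⁻¹ * cascSum r m n Y t := by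
    rw [← cascSum_add m n (fun _ => 1) Y (-C⁻¹)]
    congr 1
    funext ω
    ring
  simp only [cascMean, e]
  field_simp
  ring

lemma measurable_cascMean (m : Fin r → ℝ) (n : Fin r → ℕ) {Y : (Fin r → β) → ℝ}
    (hY : Measurable Y) : Measurable fun t : CascTree β r n => cascMean m n Y t :=
  (measurable_cascSum m n hY).div (measurable_cascSum m n measurable_const)

variable (ν : Measure β) [IsProbabilityMeasure ν]

/-- The series identity in finite cascades, with the truncation error. -/
lemma abs_tilt_sub_series_le {n : ℕ} {m : Fin r → ℝ} (hm : Exps m) {C : ℝ} (hC : 1 ≤ C)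
    {Y : (Fin r → β) → ℝ} (hY : Bdd C Y) {g : Fin (n + 1) → (Fin r → β) → ℝ}
    (hgm : ∀ a, Measurable (g a)) (hg : ∀ a ω, |g a ω| ≤ 1) (D : ℕ) :
    |tiltMoment ν m Y g - ∑ d ∈ range D, coefW C n d *
        treeMoment ν m (Fin.append g fun _ : Fin d => fun ω => 1 - Y ω / C)| ≤ tailW C n D := by
  have := cascFilter_neBot r
  set h : (Fin r → β) → ℝ := fun ω => 1 - Y ω / C
  have hhm : Measurable h := measurable_const.sub (hY.meas.div_const _)
  have hh : ∀ ω, |h ω| ≤ 1 := fun ω => by
    obtain ⟨a, b⟩ := one_sub_div_mem hC (hY.mem ω).1 (hY.mem ω).2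
    rw [abs_of_nonneg a]
    exact b.trans (gq_mem hC).2.le
  have ham : ∀ d, ∀ a, Measurable (Fin.append g (fun _ : Fin d => h) a) := fun d a => by
    induction a using Fin.addCases <;> simp [hgm, hhm]
  have hab : ∀ d, ∀ a ω, |Fin.append g (fun _ : Fin d => h) a ω| ≤ 1 := fun d a => by
    induction a using Fin.addCases <;> simp [hg, hh]
  refine le_of_tendsto (((integral_prod_ratio_tendsto ν n hm hC hY hgm hg).sub
    (tendsto_finsetSum _ fun d _ => (cascadeMoment β ν r (n + 1 + d) m hm.pos hm.lt_one hm.mono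
      _ (ham d) (hab d)).const_mul (coefW C n d))).abs) ?_
  filter_upwards [eventually_pos r] with nn hn
  have i1 := integrable_prod_ratio ν hY hgm hg m hn
  have i2 : ∀ d, Integrable (fun t => coefW C n d *
      ∏ a, cascMean m nn (Fin.append g (fun _ : Fin d => h) a) t) (cascLaw ν r nn) := fun d => by
    refine Integrable.const_mul ?_ _
    refine Integrable.of_bound (Finset.measurable_prod _ fun a _ =>
      measurable_cascMean m nn (ham d a)).aestronglyMeasurable 1 ((ae_good ν r nn).mono fun t ht => ?_)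
    rw [Real.norm_eq_abs, Finset.abs_prod]
    exact Finset.prod_le_one (fun a _ => abs_nonneg _) fun a _ => abs_cascMean_le (hab d a) m hn ht
  simp only [← integral_const_mul]
  rw [← integral_finsetSum _ fun d _ => i2 d, ← integral_sub i1 (integrable_finsetSum _ fun d _ => i2 d),
    ← Real.norm_eq_abs]
  refine (norm_integral_le_of_norm_le_const (C := tailW C n D)
    ((ae_good ν r nn).mono fun t ht => ?_)).trans_eq (by rw [probReal_univ, mul_one])
  obtain ⟨hz1, hz2⟩ := cascMean_mem hY m hn ht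
  obtain ⟨s1, s2⟩ := series_bound hC n D hz1 hz2
  set P := ∏ a, cascMean m nn (g a) t
  have hP : |P| ≤ 1 := by
    rw [Finset.abs_prod]
    exact Finset.prod_le_one (fun a _ => abs_nonneg _) fun a _ => abs_cascMean_le (hg a) m hn ht
  have e1 : ∏ a, ratio m nn Y (g a) t = P * (cascMean m nn Y t)⁻¹ ^ (n + 1) := by
    have h1 := cascSum_one_pos m hn ht
    have h2 := (cascSum_pos hY m hn ht).2
    rw [show (cascMean m nn Y t)⁻¹ ^ (n + 1) = ∏ _a : Fin (n + 1), (cascMean m nn Y t)⁻¹ by simp,
      ← prod_mul_distrib]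
    refine prod_congr rfl fun a _ => ?_
    simp only [ratio, cascMean]
    field_simp
  have e2 : ∀ d, coefW C n d * ∏ a, cascMean m nn (Fin.append g (fun _ : Fin d => h) a) t =
      P * (coefW C n d * (1 - cascMean m nn Y t / C) ^ d) := fun d => by
    rw [Fin.prod_univ_add]
    simp only [Fin.append_left, Fin.append_right, prod_const, card_univ, Fintype.card_fin, h,
      cascMean_one_sub m hn ht Y C, P]
    ring
  simp only [e1, e2, ← mul_sum, ← mul_sub, Real.norm_eq_abs, abs_mul, abs_of_nonneg s1]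
  exact (mul_le_of_le_one_left s1 hP).trans s2

lemma abs_log_sub_series_le {m : Fin r → ℝ} (hm : Exps m) {C : ℝ} (hC : 1 ≤ C)
    {Y : (Fin r → β) → ℝ} (hY : Bdd C Y) (D : ℕ) :
    |Real.log (genNested ν m Y) - (Real.log C - ∑ d ∈ range D,
        treeMoment ν m (fun _ : Fin (d + 1) => fun ω => 1 - Y ω / C) / (d + 1))| ≤
      gq C ^ (D + 1) / (1 - gq C) := by
  have := cascFilter_neBot r
  obtain ⟨hq0, hq1⟩ := gq_mem hC
  set h : (Fin r → β) → ℝ := fun ω => 1 - Y ω / C
  have hhm : Measurable h := measurable_const.sub (hY.meas.div_const _)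
  have hh : ∀ ω, |h ω| ≤ 1 := fun ω => by
    obtain ⟨a, b⟩ := one_sub_div_mem hC (hY.mem ω).1 (hY.mem ω).2
    rw [abs_of_nonneg a]
    exact b.trans hq1.le
  refine le_of_tendsto ((((cascadeLog β ν r m hm.pos hm.lt_one hm.mono Y C hY.pos hY.meas
    hY.mem).sub (tendsto_const_nhds.sub (tendsto_finsetSum _ fun d _ =>
      (cascadeMoment β ν r (d + 1) m hm.pos hm.lt_one hm.mono _ (fun _ => hhm)
        (fun _ => hh)).div_const ((d : ℝ) + 1))))).abs) ?_
  filter_upwards [eventually_pos r] with nn hn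
  have i1 : Integrable (fun t => Real.log (cascMean m nn Y t)) (cascLaw ν r nn) :=
    Integrable.of_bound (measurable_cascMean m nn hY.meas).log.aestronglyMeasurable |Real.log C|
      ((ae_good ν r nn).mono fun t ht =>
        abs_log_le hY.pos (cascMean_mem hY m hn ht).1 (cascMean_mem hY m hn ht).2)
  have i2 : ∀ d : ℕ, Integrable (fun t => (∏ _a : Fin (d + 1), cascMean m nn h t) / ((d : ℝ) + 1))
      (cascLaw ν r nn) := fun d => by
    refine Integrable.div_const ?_ _
    refine Integrable.of_bound (Finset.measurable_prod _ fun a _ =>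
      measurable_cascMean m nn hhm).aestronglyMeasurable 1 ((ae_good ν r nn).mono fun t ht => ?_)
    rw [Real.norm_eq_abs, Finset.abs_prod]
    exact Finset.prod_le_one (fun a _ => abs_nonneg _) fun a _ => abs_cascMean_le hh m hn ht
  have i3 : Integrable (fun t => Real.log C - ∑ d ∈ range D,
      (∏ _a : Fin (d + 1), cascMean m nn h t) / ((d : ℝ) + 1)) (cascLaw ν r nn) :=
    (integrable_const _).sub (integrable_finsetSum _ fun d _ => i2 d)
  simp only [← integral_div]
  rw [← integral_finsetSum _ fun d _ => i2 d,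
    show Real.log C = ∫ _t, Real.log C ∂cascLaw ν r nn by simp,
    ← integral_sub (integrable_const _) (integrable_finsetSum _ fun d _ => i2 d),
    ← integral_sub i1 i3,
    ← Real.norm_eq_abs]
  refine (norm_integral_le_of_norm_le_const (C := gq C ^ (D + 1) / (1 - gq C))
    ((ae_good ν r nn).mono fun t ht => ?_)).trans_eq (by rw [probReal_univ, mul_one])
  obtain ⟨hz1, hz2⟩ := cascMean_mem hY m hn ht
  obtain ⟨hu0, hu1⟩ := one_sub_div_mem hC hz1 hz2
  have hz : 0 < cascMean m nn Y t := (inv_pos.2 hY.pos).trans_le hz1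
  simp only [prod_const, card_univ, Fintype.card_fin, h, cascMean_one_sub m hn ht Y C,
    Real.norm_eq_abs]
  set u := 1 - cascMean m nn Y t / C with hu
  have habs : |u| = u := abs_of_nonneg hu0
  have hlog : Real.log (cascMean m nn Y t) = Real.log C + Real.log (1 - u) := by
    rw [hu, sub_sub_cancel, Real.log_div hz.ne' hY.pos.ne']
    ring
  rw [hlog]
  refine le_trans (le_of_eq ?_)
    ((Real.abs_log_sub_add_sum_range_le (x := u) (by rw [habs]; linarith) D).trans ?_)
  · congr 1
    ring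
  · rw [habs]
    exact div_le_div₀ (pow_nonneg hq0 _) (pow_le_pow_left₀ hu0 hu1 _) (by linarith) (by linarith)

end Casc

section Shapes

variable {β : Type} [MeasurableSpace β] (ν : Measure β) [IsProbabilityMeasure ν] {r n : ℕ}

/-- The tilted moment weighted by a function of the shape. -/
def tiltG (m : Fin r → ℝ) (Y : (Fin r → β) → ℝ) (g : Fin (n + 1) → (Fin r → β) → ℝ)
    (G : Shape r (n + 1) → ℝ) : ℝ :=
  ∑ v : Shape r (n + 1), shapeProb m (n + 1) v * G v * ∫ ω, integrand ν m Y g v ω ∂tableLaw ν r (n + 1)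

/-- The untilted moment with `d` new replicas, weighted by a function of the old ones. -/
def termG (m : Fin r → ℝ) (h : (Fin r → β) → ℝ) (g : Fin (n + 1) → (Fin r → β) → ℝ)
    (G : Shape r (n + 1) → ℝ) (d : ℕ) : ℝ :=
  ∑ v : Shape r (n + 1 + d), shapeProb m (n + 1 + d) v * G (restr (Fin.castAdd d) v) *
    ∫ ω, ∏ a, Fin.append g (fun _ : Fin d => h) a (shapeMarks v ω a) ∂tableLaw ν r (n + 1 + d)

lemma tiltG_one (m : Fin r → ℝ) (Y : (Fin r → β) → ℝ) (g : Fin (n + 1) → (Fin r → β) → ℝ) :
    tiltG ν m Y g (fun _ => 1) = tiltMoment ν m Y g := by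
  simp [tiltG, tiltMoment, integrand]

lemma termG_one (m : Fin r → ℝ) (h : (Fin r → β) → ℝ) (g : Fin (n + 1) → (Fin r → β) → ℝ)
    (d : ℕ) : termG ν m h g (fun _ => 1) d = treeMoment ν m (Fin.append g fun _ : Fin d => h) := by
  simp [termG, treeMoment, tableLaw]

variable {m : Fin r → ℝ} {C : ℝ} {Y : (Fin r → β) → ℝ} {g : Fin (n + 1) → (Fin r → β) → ℝ}

lemma abs_rep_sub_series_le (hT : TiltFactorStmt) (hm : Exps m) (hC : 1 ≤ C) (hY : Bdd C Y)
    (hgm : ∀ a, Measurable (g a)) (hg : ∀ a ω, |g a ω| ≤ 1) {R : Shape r (n + 1) → ℝ}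
    (hR : Rep R) (D : ℕ) :
    |tiltG ν m Y g R - ∑ d ∈ range D, coefW C n d * termG ν m (fun ω => 1 - Y ω / C) g R d| ≤
      tailW C n D := by
  obtain ⟨γ, _, μ, s, _, hs, hsb, hRs⟩ := hR
  set Y' : (Fin r → β × γ) → ℝ := fun η => Y (fun i => (η i).1) * 1 with hY'
  set g' : Fin (n + 1) → (Fin r → β × γ) → ℝ :=
    fun a η => g a (fun i => (η i).1) * s a (fun i => (η i).2) with hg'
  have hY'b : Bdd C Y' := ⟨hY.pos, (hY.meas.comp
      (measurable_pi_lambda _ fun i => (measurable_pi_apply i).fst)).mul measurable_const,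
    fun η => by simpa [hY'] using hY.mem _⟩
  have hg'm : ∀ a, Measurable (g' a) := fun a =>
    ((hgm a).comp (measurable_pi_lambda _ fun i => (measurable_pi_apply i).fst)).mul
      ((hs a).comp (measurable_pi_lambda _ fun i => (measurable_pi_apply i).snd))
  have hg'b : ∀ a η, |g' a η| ≤ 1 := fun a η => by
    rw [hg', abs_mul]
    exact mul_le_one₀ (hg a _) (abs_nonneg _) (hsb a _)
  have hone : Bdd C (fun _ : Fin r → γ => (1 : ℝ)) :=
    ⟨hY.pos, measurable_const, fun _ => ⟨inv_le_one_of_one_le₀ hC, hC⟩⟩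
  have honeβ : Bdd C (fun _ : Fin r → β => (1 : ℝ)) :=
    ⟨hY.pos, measurable_const, fun _ => ⟨inv_le_one_of_one_le₀ hC, hC⟩⟩
  have h1 : tiltMoment (ν.prod μ) m Y' g' = tiltG ν m Y g R := by
    refine sum_congr rfl fun v _ => ?_
    by_cases hP : shapeProb m (n + 1) v = 0
    · simp [hP]
    have hv := isTree_of_prob hP
    have := hT β γ ν μ r (n + 1) m hm C Y (fun _ => 1) hY hone g s hgm hs
      (fun a ω => (hg a ω).trans hC) (fun a ω => (hsb a ω).trans hC) v hv
    simp only [logW_one μ hm, Real.exp_zero, one_mul] at this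
    rw [mul_assoc]
    congr 1
    refine this.trans ?_
    have e := hRs (n + 1) id v hv
    simp only [id] at e
    rw [e, mul_comm (R v)]
    rfl
  have h2 : ∀ d, treeMoment (ν.prod μ) m (Fin.append g' fun _ : Fin d => fun η => 1 - Y' η / C) =
      termG ν m (fun ω => 1 - Y ω / C) g R d := by
    intro d
    refine sum_congr rfl fun v _ => ?_
    by_cases hP : shapeProb m (n + 1 + d) v = 0
    · simp [hP]
    have hv := isTree_of_prob hP
    set gg := Fin.append g fun _ : Fin d => fun ω => 1 - Y ω / C with hgg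
    set ss := Fin.append s fun _ : Fin d => fun _ : Fin r → γ => (1 : ℝ) with hss
    have hggm : ∀ a, Measurable (gg a) := fun a => by
      induction a using Fin.addCases with
      | left a => simpa [hgg] using hgm a
      | right a =>
        simp only [hgg, Fin.append_right]
        exact measurable_const.sub (hY.meas.div_const C)
    have hggb : ∀ a ω, |gg a ω| ≤ C := fun a ω => by
      induction a using Fin.addCases with
      | left a => simpa [hgg] using (hg a ω).trans hC
      | right a =>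
        obtain ⟨p, q⟩ := one_sub_div_mem hC (hY.mem ω).1 (hY.mem ω).2
        simp only [hgg, Fin.append_right, abs_of_nonneg p]
        linarith [(gq_mem hC).2]
    have hssm : ∀ a, Measurable (ss a) := fun a => by
      induction a using Fin.addCases <;> simp [hss, hs]
    have hssb : ∀ a ω, |ss a ω| ≤ C := fun a ω => by
      induction a using Fin.addCases with
      | left a => simpa [hss] using (hsb a ω).trans hC
      | right a => simpa [hss] using hC
    have := hT β γ ν μ r (n + 1 + d) m hm C (fun _ => 1) (fun _ => 1) honeβ hone gg ss hggm hssm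
      hggb hssb v hv
    simp only [mul_one, logW_one ν hm, logW_one μ hm, logW_one (ν.prod μ) hm, Real.exp_zero,
      one_mul] at this
    have e : ∀ a, (fun η : Fin r → β × γ => gg a (fun i => (η i).1) * ss a (fun i => (η i).2)) =
        Fin.append g' (fun _ : Fin d => fun η => 1 - Y' η / C) a := fun a => by
      induction a using Fin.addCases <;> simp [hgg, hss, hg', hY']
    simp only [← e]
    rw [mul_assoc]
    congr 1
    refine this.trans ?_
    rw [mul_comm (R _), ← hRs (n + 1 + d) (Fin.castAdd d) v hv]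
    congr 1
    refine integral_congr_ae (Filter.Eventually.of_forall fun ω => ?_)
    simp [hss, Fin.prod_univ_add]
  rw [← h1]
  simp only [← h2]
  exact abs_tilt_sub_series_le (ν.prod μ) hm hC hY'b hg'm hg'b D

lemma tendsto_series (hT : TiltFactorStmt) (hm : Exps m) (hC : 1 ≤ C) (hY : Bdd C Y)
    (hgm : ∀ a, Measurable (g a)) (hg : ∀ a ω, |g a ω| ≤ 1) (G : Shape r (n + 1) → ℝ) :
    Tendsto (fun D => ∑ d ∈ range D, coefW C n d * termG ν m (fun ω => 1 - Y ω / C) g G d) atTop
      (𝓝 (tiltG ν m Y g G)) := by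
  induction mem_span_rep hT hm G using Submodule.span_induction with
  | mem R hR =>
    rw [tendsto_iff_norm_sub_tendsto_zero]
    exact squeeze_zero (fun _ => norm_nonneg _) (fun D => by
      rw [Real.norm_eq_abs, abs_sub_comm]
      exact abs_rep_sub_series_le ν hT hm hC hY hgm hg hR D) (tendsto_tailW hC n)
  | zero => simp [termG, tiltG]
  | add G G' _ _ h h' =>
    have h3 := h.add h'
    simp only [← sum_add_distrib] at h3
    refine (Tendsto.congr' (Eventually.of_forall fun D => sum_congr rfl fun d _ => ?_) h3).trans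
      (le_of_eq (congrArg 𝓝 ?_))
    · simp only [termG, Pi.add_apply, mul_add, add_mul, sum_add_distrib]
    · simp only [tiltG, Pi.add_apply, mul_add, add_mul, sum_add_distrib]
  | smul c G _ h =>
    have h3 := h.const_mul c
    refine (Tendsto.congr' (Eventually.of_forall fun D => ?_) h3).trans (le_of_eq (congrArg 𝓝 ?_))
    · rw [mul_sum]
      refine sum_congr rfl fun d _ => ?_
      simp only [termG, Pi.smul_apply, smul_eq_mul, mul_sum]
      exact sum_congr rfl fun v _ => by ring
    · simp only [tiltG, Pi.smul_apply, smul_eq_mul, mul_sum]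
      exact sum_congr rfl fun v _ => by ring

lemma abs_termG_le (hm : Exps m) {h : (Fin r → β) → ℝ} (hh0 : ∀ ω, 0 ≤ h ω)
    {G : Shape r (n + 1) → ℝ} {K : ℝ} (hK : ∀ v, |G v| ≤ K) (d : ℕ) :
    |termG ν m h g G d| ≤ K * termG ν m h (fun a ω => |g a ω|) (fun _ => 1) d := by
  rw [termG, termG, mul_sum]
  refine (abs_sum_le_sum_abs _ _).trans (sum_le_sum fun v _ => ?_)
  rw [abs_mul, abs_mul, abs_of_nonneg (shapeProb_nonneg hm v)]
  have hI : |∫ ω, ∏ a, Fin.append g (fun _ : Fin d => h) a (shapeMarks v ω a)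
      ∂tableLaw ν r (n + 1 + d)| ≤ ∫ ω, ∏ a,
        Fin.append (fun a ω => |g a ω|) (fun _ : Fin d => h) a (shapeMarks v ω a)
      ∂tableLaw ν r (n + 1 + d) := by
    refine abs_integral_le_integral_abs.trans (le_of_eq (integral_congr_ae ?_))
    refine Eventually.of_forall fun ω => ?_
    simp only [Finset.abs_prod]
    refine prod_congr rfl fun a _ => ?_
    induction a using Fin.addCases with
    | left a => simp
    | right a => simp [abs_of_nonneg (hh0 _)]
  calc shapeProb m (n + 1 + d) v * |G (restr (Fin.castAdd d) v)| * _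
      ≤ shapeProb m (n + 1 + d) v * K * ∫ ω, ∏ a,
          Fin.append (fun a ω => |g a ω|) (fun _ : Fin d => h) a (shapeMarks v ω a)
        ∂tableLaw ν r (n + 1 + d) :=
        mul_le_mul (mul_le_mul_of_nonneg_left (hK _) (shapeProb_nonneg hm v)) hI (abs_nonneg _)
          (mul_nonneg (shapeProb_nonneg hm v) ((abs_nonneg _).trans (hK (restr (Fin.castAdd d) v))))
    _ = _ := by ring

/-- The series with an error uniform in the cascade. -/
theorem abs_tiltG_sub_series_le (hT : TiltFactorStmt) (hm : Exps m) (hC : 1 ≤ C) (hY : Bdd C Y)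
    (hgm : ∀ a, Measurable (g a)) (hg : ∀ a ω, |g a ω| ≤ 1) {G : Shape r (n + 1) → ℝ} {K : ℝ}
    (hK : ∀ v, |G v| ≤ K) (D : ℕ) :
    |tiltG ν m Y g G - ∑ d ∈ range D, coefW C n d * termG ν m (fun ω => 1 - Y ω / C) g G d| ≤
      K * tailW C n D := by
  set h : (Fin r → β) → ℝ := fun ω => 1 - Y ω / C
  have hh : ∀ ω, 0 ≤ h ω ∧ h ω ≤ 1 := fun ω => by
    obtain ⟨a, b⟩ := one_sub_div_mem hC (hY.mem ω).1 (hY.mem ω).2
    exact ⟨a, b.trans (gq_mem hC).2.le⟩
  set S : ℕ → ℝ := fun E => ∑ d ∈ range E, coefW C n d * termG ν m h g G d with hS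
  set T : ℕ → ℝ := fun E =>
    ∑ d ∈ range E, coefW C n d * termG ν m h (fun a ω => |g a ω|) (fun _ => 1) d with hT'
  have hK0 : 0 ≤ K := (abs_nonneg _).trans (hK fun _ _ => Fin.last r)
  set M := tiltMoment ν m Y (fun a ω => |g a ω|)
  have hM : ∀ E, |M - T E| ≤ tailW C n E := fun E => by
    simp only [hT', termG_one]
    exact abs_tilt_sub_series_le ν hm hC hY (fun a => (hgm a).abs)
      (fun a ω => by rw [abs_abs]; exact hg a ω) E
  have hstep : ∀ E, D ≤ E → |S E - S D| ≤ K * (tailW C n D + tailW C n E) := by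
    intro E hE
    calc |S E - S D| = |∑ d ∈ Ico D E, coefW C n d * termG ν m h g G d| := by
          rw [sum_Ico_eq_sub _ hE]
      _ ≤ ∑ d ∈ Ico D E, coefW C n d * (K * termG ν m h (fun a ω => |g a ω|) (fun _ => 1) d) :=
          (abs_sum_le_sum_abs _ _).trans (sum_le_sum fun d _ => by
            rw [abs_mul, abs_of_nonneg (coefW_nonneg hC n d)]
            exact mul_le_mul_of_nonneg_left (abs_termG_le ν hm (fun ω => (hh ω).1) hK d)
              (coefW_nonneg hC n d))
      _ = K * (T E - T D) := by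
          rw [hT', ← sum_Ico_eq_sub _ hE, mul_sum]
          exact sum_congr rfl fun d _ => by ring
      _ ≤ _ := mul_le_mul_of_nonneg_left
          (by linarith [abs_le.1 (hM D), abs_le.1 (hM E)]) hK0
  have hlim : Tendsto (fun E => K * (tailW C n D + tailW C n E)) atTop
      (𝓝 (K * (tailW C n D + 0))) := ((tendsto_tailW hC n).const_add _).const_mul _
  rw [add_zero] at hlim
  exact le_of_tendsto_of_tendsto (((tendsto_series ν hT hm hC hY hgm hg G).sub_const _).abs) hlim
    ((eventually_ge_atTop D).mono hstep)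

end Shapes

end Vale.Agent.P157.Parisi.Cont
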