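import Vale.Agent.P157.Potential

/-!
Gaussian expectations of functions of linear forms depend continuously on the Gram matrix.
-/

noncomputable section

open MeasureTheory ProbabilityTheory Filter
open scoped Topology InnerProductSpace

namespace Vale.Agent.P157.Parisi.Cont

variable {ι κ : Type*} [Fintype ι] [Fintype κ] {k n : ℕ}

/-- The Gram matrix. -/
def gramOf (v : Fin n → ι → ℝ) : Fin n → Fin n → ℝ := fun a b => dot (v a) (v b)

/-- The linear forms given by `v`. -/
def forms (v : Fin n → ι → ℝ) (g : ι → ℝ) : Fin n → ℝ := fun l => dot g (v l)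

/-- The expectation of `Θ` at `k` independent copies of the forms. -/
def expVal (Θ : (Fin k → Fin n → ℝ) → ℝ) (v : Fin n → ι → ℝ) : ℝ :=
  ∫ g : Fin k → ι → ℝ, Θ (fun j => forms v (g j)) ∂(Measure.pi fun _ => gam ι)

lemma continuous_forms (v : Fin n → ι → ℝ) : Continuous (forms v) := by
  unfold forms dot; fun_prop

lemma charFunDual_gam [DecidableEq ι] (L : StrongDual ℝ (ι → ℝ)) :
    charFunDual (gam ι) L =
      Complex.exp (-((∑ i, L (Pi.single i 1) ^ 2 : ℝ) : ℂ) / 2) := by
  rw [show gam ι = Measure.pi (fun _ : ι => gaussianReal 0 1) from rfl, charFunDual_pi]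
  have h : ∀ i : ι, charFunDual (gaussianReal 0 1) (L.comp (.single ℝ (fun _ : ι => ℝ) i)) =
      Complex.exp (-((L (Pi.single i 1) ^ 2 : ℝ) : ℂ) / 2) := by
    intro i
    have e : ∀ x : ℝ, (L.comp (.single ℝ (fun _ : ι => ℝ) i)) x = L (Pi.single i 1) * x := by
      intro x
      have : Pi.single (M := fun _ : ι => ℝ) i x = x • Pi.single i (1 : ℝ) := by
        rw [← Pi.single_smul, smul_eq_mul, mul_one]
      simp only [ContinuousLinearMap.comp_apply, ContinuousLinearMap.single_apply]
      rw [this, map_smul, smul_eq_mul, mul_comm]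
    have h1 := charFun_gaussianReal (μ := 0) (v := 1) (L (Pi.single i 1))
    rw [charFun_apply_real] at h1
    rw [charFunDual_apply]
    simp only [e]
    push_cast
    rw [h1]
    congr 1
    push_cast
    ring
  rw [Finset.prod_congr rfl fun i _ => h i, ← Complex.exp_sum]
  congr 1
  push_cast
  rw [← Finset.sum_neg_distrib, Finset.sum_div]

lemma charFunDual_forms [DecidableEq ι] (u : Fin n → ι → ℝ) (L : StrongDual ℝ (Fin n → ℝ)) :
    charFunDual ((gam ι).map (forms u)) L =
      Complex.exp (-((∑ a, ∑ b, L (Pi.single a 1) * L (Pi.single b 1) * gramOf u a b : ℝ) : ℂ) /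
        2) := by
  let T : (ι → ℝ) →L[ℝ] (Fin n → ℝ) := ContinuousLinearMap.pi fun l =>
    ∑ i, u l i • ContinuousLinearMap.proj i
  have hT : ∀ g, T g = forms u g := fun g => by
    ext l
    simp [T, forms, dot, mul_comm]
  have h1 : charFunDual ((gam ι).map (forms u)) L = charFunDual (gam ι) (L.comp T) := by
    rw [charFunDual_apply, charFunDual_apply, integral_map (continuous_forms u).aemeasurable]
    · simp [hT]
    · exact Measurable.aestronglyMeasurable (by fun_prop)
  rw [h1, charFunDual_gam]
  congr 4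
  have h2 : ∀ i, (L.comp T) (Pi.single i 1) = ∑ a, L (Pi.single a 1) * u a i := by
    intro i
    rw [ContinuousLinearMap.comp_apply]
    conv_lhs => rw [pi_eq_sum_univ' (T (Pi.single i 1)), map_sum]
    refine Finset.sum_congr rfl fun a _ => ?_
    rw [map_smul, smul_eq_mul, hT, mul_comm]
    simp [forms, dot, Pi.single_apply]
  simp only [h2, sq, Finset.sum_mul_sum]
  rw [Finset.sum_comm]
  refine Finset.sum_congr rfl fun a _ => ?_
  rw [Finset.sum_comm]
  refine Finset.sum_congr rfl fun b _ => ?_
  rw [gramOf, dot, Finset.mul_sum]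
  exact Finset.sum_congr rfl fun i _ => by ring

/-- The law of the forms depends only on the Gram matrix. -/
lemma map_forms_eq (v : Fin n → ι → ℝ) (w : Fin n → κ → ℝ) (h : gramOf v = gramOf w) :
    (gam ι).map (forms v) = (gam κ).map (forms w) := by
  classical
  have := Measure.isProbabilityMeasure_map (μ := gam ι) (continuous_forms v).aemeasurable
  have := Measure.isProbabilityMeasure_map (μ := gam κ) (continuous_forms w).aemeasurable
  refine Measure.ext_of_charFunDual (funext fun L => ?_)
  rw [charFunDual_forms v L, charFunDual_forms w L, h]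

lemma expVal_eq_map {Θ : (Fin k → Fin n → ℝ) → ℝ} (hΘ : Measurable Θ) (v : Fin n → ι → ℝ) :
    expVal Θ v = ∫ x, Θ x ∂(Measure.pi fun _ : Fin k => (gam ι).map (forms v)) := by
  have := Measure.isProbabilityMeasure_map (μ := gam ι) (continuous_forms v).aemeasurable
  rw [← Measure.pi_map_pi (f := fun _ => forms v) fun _ => (continuous_forms v).aemeasurable]
  exact (integral_map (measurable_pi_lambda _ fun j =>
    (continuous_forms v).measurable.comp (measurable_pi_apply j)).aemeasurable
    hΘ.aestronglyMeasurable).symm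

lemma expVal_congr {Θ : (Fin k → Fin n → ℝ) → ℝ} (hΘ : Measurable Θ) (v : Fin n → ι → ℝ)
    (w : Fin n → κ → ℝ) (h : gramOf v = gramOf w) : expVal Θ v = expVal Θ w := by
  rw [expVal_eq_map hΘ v, expVal_eq_map hΘ w, map_forms_eq v w h]

/-- Every Gram matrix of `n` vectors is realised in dimension `n`. -/
lemma exists_gramOf (v : Fin n → ι → ℝ) : ∃ w : Fin n → Fin n → ℝ, gramOf w = gramOf v := by
  classical
  let x : Fin n → EuclideanSpace ℝ ι := fun a => WithLp.toLp 2 (v a)
  let S := Submodule.span ℝ (Set.range x)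
  have hd : Module.finrank ℝ S ≤ n := (finrank_range_le_card x).trans (by simp)
  let b := stdOrthonormalBasis ℝ S
  let y : Fin n → S := fun a => ⟨x a, Submodule.subset_span ⟨a, rfl⟩⟩
  refine ⟨fun a => Function.extend (Fin.castLE hd) (fun i => ⟪y a, b i⟫_ℝ) 0,
    funext fun a => funext fun c => ?_⟩
  show ∑ i : Fin n, _ * _ = _
  have hinj := Fin.castLE_injective hd
  rw [← Finset.sum_subset (Finset.subset_univ (Finset.univ.map ⟨_, hinj⟩))
    (fun i _ hi => by
      have hi' : ¬ ∃ j, Fin.castLE hd j = i := fun ⟨j, hj⟩ =>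
        hi (Finset.mem_map.2 ⟨j, Finset.mem_univ _, hj⟩)
      simp only [Function.extend_apply' _ _ _ hi', Pi.zero_apply, zero_mul])]
  rw [Finset.sum_map]
  simp only [Function.Embedding.coeFn_mk, hinj.extend_apply]
  have := b.sum_inner_mul_inner (y a) (y c)
  simp only [real_inner_comm (y c)] at this
  rw [this]
  simp [y, x, gramOf, dot, PiLp.inner_apply]

lemma continuous_expVal {Θ : (Fin k → Fin n → ℝ) → ℝ} (hΘ : Continuous Θ) {K : ℝ}
    (hK : ∀ x, |Θ x| ≤ K) : Continuous fun v : Fin n → ι → ℝ => expVal Θ v := by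
  refine continuous_of_dominated (bound := fun _ => K) (fun v => ?_) (fun v => ?_)
    (integrable_const _) (Eventually.of_forall fun g => ?_)
  · refine (hΘ.comp ?_).aestronglyMeasurable
    exact continuous_pi fun j => (continuous_forms v).comp (continuous_apply j)
  · exact Eventually.of_forall fun g => hK _
  · refine hΘ.comp (continuous_pi fun j => continuous_pi fun l => ?_)
    show Continuous fun v : Fin n → ι → ℝ => ∑ i, g j i * v l i
    fun_prop

/-- A continuous function of the Gram matrix giving the expectation, for unit vectors. -/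
lemma exists_gramFun {Θ : (Fin k → Fin n → ℝ) → ℝ} (hΘ : Continuous Θ) {K : ℝ}
    (hK : ∀ x, |Θ x| ≤ K) :
    ∃ Φ : (Fin n → Fin n → ℝ) → ℝ, Continuous Φ ∧
      ∀ {τ : Type} [Fintype τ] (v : Fin n → τ → ℝ), (∀ a, dot (v a) (v a) ≤ 1) →
        Φ (gramOf v) = expVal Θ v := by
  classical
  let Vs : Set (Fin n → Fin n → ℝ) := {v | ∀ a, dot (v a) (v a) ≤ 1}
  have hcl : IsClosed {v : Fin n → Fin n → ℝ | ∀ a, dot (v a) (v a) ≤ 1} := by
    rw [Set.ofPred_forall]
    exact isClosed_iInter fun a => isClosed_le (by unfold dot; fun_prop) continuous_const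
  have hbd : {v : Fin n → Fin n → ℝ | ∀ a, dot (v a) (v a) ≤ 1} ⊆
      Set.pi Set.univ fun _ => Set.pi Set.univ fun _ => Set.Icc (-1 : ℝ) 1 := by
    intro v hv a _ i _
    have h1 : v a i * v a i ≤ dot (v a) (v a) :=
      Finset.single_le_sum (f := fun i => v a i * v a i) (fun j _ => mul_self_nonneg _)
        (Finset.mem_univ i)
    exact abs_le.1 (abs_le_one_iff_mul_self_le_one.2 (h1.trans (hv a)))
  have : CompactSpace Vs := isCompact_iff_compactSpace.1
    ((isCompact_univ_pi fun _ => isCompact_univ_pi fun _ => isCompact_Icc).of_isClosed_subset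
      hcl hbd)
  let q : Vs → (Fin n → Fin n → ℝ) := fun v => gramOf v.1
  have hq : Continuous q := continuous_pi fun a => continuous_pi fun b => by
    show Continuous fun v : Vs => ∑ i, v.1 a i * v.1 b i
    exact (by fun_prop : Continuous fun u : Fin n → Fin n → ℝ => ∑ i, u a i * u b i).comp
      continuous_subtype_val
  have hfac : ∀ z : Set.range q, ∀ v : Vs, q v = z.1 → expVal Θ v.1 = expVal Θ z.2.choose.1 :=
    fun z v h => expVal_congr hΘ.measurable _ _ (h.trans z.2.choose_spec.symm)
  let q' : Vs → Set.range q := fun v => ⟨q v, v, rfl⟩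
  have hq' : Topology.IsQuotientMap q' :=
    (Continuous.isClosedMap (by fun_prop : Continuous q')).isQuotientMap (by fun_prop)
      fun z => ⟨z.2.choose, Subtype.ext z.2.choose_spec⟩
  let F : Set.range q → ℝ := fun z => expVal Θ z.2.choose.1
  have hF : Continuous F := by
    rw [hq'.continuous_iff]
    have : F ∘ q' = fun v => expVal Θ v.1 := funext fun v => (hfac (q' v) v rfl).symm
    rw [this]
    exact (continuous_expVal hΘ hK).comp continuous_subtype_val
  obtain ⟨Φ, hΦ⟩ := ContinuousMap.exists_restrict_eq (isCompact_range hq).isClosed ⟨F, hF⟩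
  refine ⟨Φ, Φ.continuous, fun {τ} _ v hv => ?_⟩
  obtain ⟨w, hw⟩ := exists_gramOf v
  have hwV : ∀ a, dot (w a) (w a) ≤ 1 := fun a =>
    (congrFun (congrFun hw a) a).trans_le (hv a)
  have h := DFunLike.congr_fun hΦ (q' ⟨w, hwV⟩)
  rw [ContinuousMap.restrict_apply] at h
  rw [← hw]
  exact h.trans ((hfac (q' ⟨w, hwV⟩) ⟨w, hwV⟩ rfl).symm.trans
    (expVal_congr hΘ.measurable _ _ hw))

end Vale.Agent.P157.Parisi.Cont
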