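import Vale.Agent.P157.Parisi.Statements
import Vale.Agent.P157.Parisi.Cont.Gauss
import Vale.Agent.P168.Upper.Product
import Vale.Agent.P168.Cascade.Shapes

/-!
Fresh patterns on the leaves of a tree: the joint field is a Gaussian vector with the tree Gram
matrix.
-/

noncomputable section

open MeasureTheory ProbabilityTheory Finset
open scoped BigOperators

namespace Vale.Agent.P157.Parisi.Cont

open Vale.Agent.P168 (Shape shapeMarks shapeRep shapeClass)
open Vale.Agent.P168.Cascade (IsTree tableLaw mem_class)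
open Vale.Agent.P168.Upper (mp_precomp mp_curry mp_uncurry mp_pi integral_mp)

variable {ξ : Path} {k N : ℕ}

/-- The coordinates of the field of `N` leaves. -/
abbrev LeafIdx (ξ : Path) (N : ℕ) := (Unit ⊕ (Fin ξ.r × Fin N)) ⊕ Fin N

/-- The field of leaf `a` as a vector. -/
def treeVec (ξ : Path) (v : Shape ξ.r N) (a : Fin N) : LeafIdx ξ N → ℝ :=
  Sum.elim (Sum.elim (fun _ => Real.sqrt (ξ.q 0))
      (fun pc => if shapeRep v (pc.1.val + 1) a = pc.2 then
        Real.sqrt (ξ.q pc.1.succ - ξ.q pc.1.castSucc) else 0))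
    (fun c => if c = a then Real.sqrt (1 - ξ.q (Fin.last ξ.r)) else 0)

lemma path_sub_nonneg (ξ : Path) (p : Fin ξ.r) : 0 ≤ ξ.q p.succ - ξ.q p.castSucc :=
  sub_nonneg.2 (ξ.isPath.mono (Fin.castSucc_le_succ p))

lemma sum_path_steps {r : ℕ} (q : Fin (r + 1) → ℝ) :
    ∀ t : Fin (r + 1), q 0 + ∑ p : Fin r, (if p.val < t.val then q p.succ - q p.castSucc else 0) =
      q t := by
  intro t
  induction t using Fin.induction with
  | zero => simp
  | succ i ih =>
    have : ∑ p : Fin r, (if p.val < i.succ.val then q p.succ - q p.castSucc else 0) =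
        (∑ p : Fin r, (if p.val < i.castSucc.val then q p.succ - q p.castSucc else 0)) +
          ∑ p : Fin r, (if p = i then q p.succ - q p.castSucc else 0) := by
      rw [← sum_add_distrib]
      refine sum_congr rfl fun p _ => ?_
      simp only [Fin.val_succ, Fin.val_castSucc, Fin.ext_iff]
      split_ifs <;> first | omega | ring
    rw [this, ← add_assoc, ih, sum_ite_eq' univ i, if_pos (mem_univ i)]
    ring

lemma rep_eq_rep_iff {r : ℕ} {v : Shape r N} (hv : IsTree v) (p : Fin r) (a b : Fin N) :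
    shapeRep v (p.val + 1) a = shapeRep v (p.val + 1) b ↔ p.val < (v a b).val := by
  have hm : ∀ i j : Fin N, j ∈ shapeClass v (p.val + 1) i ↔ p.val + 1 ≤ (v i j).val :=
    fun i j => by rw [mem_class, if_pos (Nat.succ_le_of_lt p.isLt)]
  rw [Nat.lt_iff_add_one_le, ← hm]
  constructor
  · intro h
    rw [← hv.class_eq (hv.rep_mem (p.val + 1) a), h, hv.class_eq (hv.rep_mem (p.val + 1) b)]
    exact hv.self_mem _ _
  · exact fun h => (hv.rep_congr h).symm

lemma gramOf_treeVec {v : Shape ξ.r N} (hv : IsTree v) :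
    gramOf (treeVec ξ v) = ξ.gram v := by
  funext a b
  have h0 : 0 ≤ ξ.q 0 := ξ.isPath.nonneg
  have h1 : 0 ≤ 1 - ξ.q (Fin.last ξ.r) := sub_nonneg.2 ξ.isPath.le_one
  have e : gramOf (treeVec ξ v) a b = ξ.q (v a b) +
      if a = b then 1 - ξ.q (Fin.last ξ.r) else 0 := by
    simp only [gramOf, dot, treeVec, Fintype.sum_sum_type, Sum.elim_inl, Sum.elim_inr,
      Fintype.sum_prod_type, univ_unique, sum_singleton, Real.mul_self_sqrt h0]
    rw [← sum_path_steps ξ.q (v a b)]
    congr 1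
    · congr 1
      refine sum_congr rfl fun p _ => ?_
      simp only [ite_mul, zero_mul, sum_ite_eq, mem_univ, if_true, mul_ite, mul_zero]
      rw [if_congr (rep_eq_rep_iff hv p a b) rfl rfl,
        Real.mul_self_sqrt (path_sub_nonneg ξ p)]
    · simp only [ite_mul, zero_mul, mul_ite, mul_zero]
      by_cases hab : a = b
      · subst hab
        simp [Real.mul_self_sqrt h1]
      · simp [hab]
        exact fun h => absurd h.symm hab
  rw [e]
  unfold Path.gram
  split_ifs with hab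
  · rw [hab, hv.diag]; ring
  · ring

/-- The product over replicas of functions of the patterns. -/
def prodΘ (Ψ : Fin N → (Fin k → ℝ) → ℝ) (S : Fin k → Fin N → ℝ) : ℝ := ∏ a, Ψ a fun j => S j a

/-- The fields at the leaves before the innermost average. -/
def leafX (ξ : Path) (g₀ : Fin k → ℝ) (η : Fin ξ.r → Fin k → ℝ) : Fin k → ℝ :=
  fun j => pathField ξ.q (g₀ j) fun p => η p j

/-- Averaging over the innermost Gaussians. -/
def sm (δ : ℝ) (Ψ : (Fin k → ℝ) → ℝ) (x : Fin k → ℝ) : ℝ :=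
  ∫ z, Ψ (fun j => x j + Real.sqrt δ * z j) ∂gam (Fin k)

lemma sm_prod (δ : ℝ) (ψ : Fin k → ℝ → ℝ) (x : Fin k → ℝ) :
    sm δ (fun y => ∏ j, ψ j (y j)) x =
      ∏ j, ∫ z, ψ j (x j + Real.sqrt δ * z) ∂gaussianReal 0 1 :=
  integral_fintype_prod_eq_prod (fun j z => ψ j (x j + Real.sqrt δ * z))

lemma continuous_leafX (ξ : Path) :
    Continuous fun z : (Fin k → ℝ) × (Fin ξ.r → Fin k → ℝ) => leafX ξ z.1 z.2 := by
  refine continuous_pi fun j => ?_
  unfold leafX pathField
  fun_prop

lemma forms_treeVec (v : Shape ξ.r N) (g : LeafIdx ξ N → ℝ) (a : Fin N) :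
    forms (treeVec ξ v) g a = pathField ξ.q (g (Sum.inl (Sum.inl ())))
        (fun p => g (Sum.inl (Sum.inr (p, shapeRep v (p.val + 1) a)))) +
      Real.sqrt (1 - ξ.q (Fin.last ξ.r)) * g (Sum.inr a) := by
  simp only [forms, dot, treeVec, pathField, Fintype.sum_sum_type, Sum.elim_inl, Sum.elim_inr,
    Fintype.sum_prod_type, mul_ite, mul_zero, sum_ite_eq, sum_ite_eq', mem_univ, if_true,
    univ_unique, sum_singleton]
  rw [mul_comm _ (Real.sqrt (ξ.q 0)), mul_comm (g (Sum.inr a))]
  refine congrArg₂ (· + ·) (congrArg₂ (· + ·) rfl (sum_congr rfl fun p _ => ?_)) rfl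
  ring

/-- Where the fields read the Gaussian coordinates. -/
def leafEmb (ξ : Path) (k N : ℕ) :
    Fin k ⊕ ((Fin ξ.r × (Fin N × Fin k)) ⊕ (Fin N × Fin k)) → Fin k × LeafIdx ξ N :=
  Sum.elim (fun j => (j, Sum.inl (Sum.inl ())))
    (Sum.elim (fun x => (x.2.2, Sum.inl (Sum.inr (x.1, x.2.1)))) fun x => (x.2, Sum.inr x.1))

/-- Regrouping the Gaussian coordinates. -/
def regroup (ξ : Path) (k N : ℕ) (g : Fin k → LeafIdx ξ N → ℝ) :
    (Fin k → ℝ) × ((Fin ξ.r → Fin N → Fin k → ℝ) × (Fin N → Fin k → ℝ)) :=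
  (fun j => g j (Sum.inl (Sum.inl ())), (fun p c j => g j (Sum.inl (Sum.inr (p, c)))),
    fun a j => g j (Sum.inr a))

lemma mp_regroup (ξ : Path) (k N : ℕ) :
    MeasurePreserving (regroup ξ k N) (Measure.pi fun _ : Fin k => gam (LeafIdx ξ N))
      ((gam (Fin k)).prod ((tableLaw (gam (Fin k)) ξ.r N).prod
        (Measure.pi fun _ : Fin N => gam (Fin k)))) := by
  have hinj : Function.Injective (leafEmb ξ k N) := by
    rintro (a | ⟨a, b, c⟩ | ⟨b, c⟩) (a' | ⟨a', b', c'⟩ | ⟨b', c'⟩) h <;>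
      simp_all [leafEmb, Prod.ext_iff]
  have h1 := (mp_precomp (gaussianReal 0 1) hinj).comp
    (mp_uncurry (ι := Fin k) (κ := LeafIdx ξ N) (gaussianReal 0 1))
  have h2 := (measurePreserving_sumPiEquivProdPi fun _ : Fin k ⊕
    ((Fin ξ.r × (Fin N × Fin k)) ⊕ (Fin N × Fin k)) => gaussianReal 0 1).comp h1
  have h3 := ((MeasurePreserving.id (gam (Fin k))).prod
    (measurePreserving_sumPiEquivProdPi fun _ : (Fin ξ.r × (Fin N × Fin k)) ⊕ (Fin N × Fin k) =>
      gaussianReal 0 1)).comp h2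
  have h4 := ((MeasurePreserving.id (gam (Fin k))).prod
    (((mp_pi (ι := Fin ξ.r) (mp_curry (ι := Fin N) (κ := Fin k) (gaussianReal 0 1))).comp
      (mp_curry (ι := Fin ξ.r) (κ := Fin N × Fin k) (gaussianReal 0 1))).prod
        (mp_curry (ι := Fin N) (κ := Fin k) (gaussianReal 0 1)))).comp h3
  exact h4

/-- The joint Gaussian expectation on a tree, by successive averages. -/
theorem expVal_treeVec (v : Shape ξ.r N) (Ψ : Fin N → (Fin k → ℝ) → ℝ) (hΨ : ∀ a, Continuous (Ψ a))
    {K : ℝ} (hK : ∀ a x, |Ψ a x| ≤ K) :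
    expVal (prodΘ Ψ) (treeVec ξ v) = ∫ g₀, ∫ ω,
      ∏ a, sm (1 - ξ.q (Fin.last ξ.r)) (Ψ a) (leafX ξ g₀ (shapeMarks v ω a))
        ∂tableLaw (gam (Fin k)) ξ.r N ∂gam (Fin k) := by
  set δ := 1 - ξ.q (Fin.last ξ.r) with hδ
  let F : (Fin k → ℝ) × ((Fin ξ.r → Fin N → Fin k → ℝ) × (Fin N → Fin k → ℝ)) → ℝ := fun z =>
    ∏ a, Ψ a fun j => leafX ξ z.1 (shapeMarks v z.2.1 a) j + Real.sqrt δ * z.2.2 a j
  have hFc : Continuous F := by
    refine continuous_finsetProd _ fun a _ => (hΨ a).comp (continuous_pi fun j => ?_)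
    refine Continuous.add ?_ (by fun_prop)
    have := ((continuous_leafX (k := k) ξ).comp (continuous_fst.prodMk
      (continuous_pi fun p => (continuous_apply (shapeRep v (p.val + 1) a)).comp
        ((continuous_apply p).comp (continuous_fst.comp continuous_snd)))) :
      Continuous fun z : (Fin k → ℝ) × ((Fin ξ.r → Fin N → Fin k → ℝ) × (Fin N → Fin k → ℝ)) =>
        leafX ξ z.1 (shapeMarks v z.2.1 a))
    exact (continuous_apply j).comp this
  have hFb : ∀ z, ‖F z‖ ≤ K ^ N := fun z => by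
    rw [Real.norm_eq_abs, abs_prod]
    exact (prod_le_prod (fun _ _ => abs_nonneg _) fun a _ => hK a _).trans_eq (by simp)
  have e : ∀ g, prodΘ Ψ (fun j => forms (treeVec ξ v) (g j)) = F (regroup ξ k N g) := fun g => by
    refine prod_congr rfl fun a _ => congrArg _ (funext fun j => ?_)
    exact forms_treeVec v (g j) a
  rw [expVal, integral_congr_ae (Filter.Eventually.of_forall e),
    integral_mp (mp_regroup ξ k N) hFc.measurable,
    integral_prod _ (Integrable.of_bound hFc.aestronglyMeasurable (K ^ N)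
      (Filter.Eventually.of_forall hFb))]
  refine integral_congr_ae (Filter.Eventually.of_forall fun g₀ => ?_)
  have hi : Integrable (fun z => F (g₀, z)) ((tableLaw (gam (Fin k)) ξ.r N).prod
      (Measure.pi fun _ : Fin N => gam (Fin k))) := Integrable.of_bound
    (hFc.comp (continuous_const.prodMk continuous_id)).aestronglyMeasurable (K ^ N)
    (Filter.Eventually.of_forall fun z => hFb _)
  beta_reduce
  rw [integral_prod _ hi]
  refine integral_congr_ae (Filter.Eventually.of_forall fun ω => ?_)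
  exact integral_fintype_prod_eq_prod
    (fun a (z : Fin k → ℝ) => Ψ a fun j => leafX ξ g₀ (shapeMarks v ω a) j + Real.sqrt δ * z j)

end Vale.Agent.P157.Parisi.Cont
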