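import Vale.Agent.P157.Parisi.Cont.Expansion
import Vale.Agent.P157.Parisi.Cont.Leaf

/-!
The factor of each replica in a fresh-pattern observable, and its average over the innermost
Gaussians.
-/

noncomputable section

open MeasureTheory ProbabilityTheory Finset
open scoped BigOperators

namespace Vale.Agent.P157.Parisi.Cont

open Vale.Agent.P168 (Shape shapeMarks)
open Vale.Agent.P168.Cascade (Exps Bdd)

variable {f : ℝ → ℝ} {A δ : ℝ} {k n : ℕ}

/-- The bound of the weight of `k` patterns. -/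
def wC (A : ℝ) (k : ℕ) : ℝ := Real.exp (k * A)

/-- The weight of `k` patterns at one replica. -/
def wt (f : ℝ → ℝ) (x : Fin k → ℝ) : ℝ := Real.exp (∑ j, f (x j))

/-- The complement of the normalised weight. -/
def hw (f : ℝ → ℝ) (A : ℝ) (x : Fin k → ℝ) : ℝ := 1 - wt f x / wC A k

/-- The part of an observable at replica `l`. -/
def fac (o : Obs n) (l : Fin n) (z : ℝ) : ℝ :=
  if o.a = o.b then if l = o.a then o.h z * o.h' z else 1
  else if l = o.a then o.h z else if l = o.b then o.h' z else 1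

/-- The normalised factor of replica `l`. -/
def psi (f : ℝ → ℝ) (B : ℝ) (o : Fin k → Obs n) (l : Fin n) (x : Fin k → ℝ) : ℝ :=
  wt f x * (∏ j, fac (o j) l (x j)) / B

lemma one_le_wC (hf : Smooth f A) (k : ℕ) : 1 ≤ wC A k :=
  Real.one_le_exp (mul_nonneg (Nat.cast_nonneg k) ((abs_nonneg _).trans (hf.b0 0)))

lemma wt_mem (hf : Smooth f A) (x : Fin k → ℝ) : (wC A k)⁻¹ ≤ wt f x ∧ wt f x ≤ wC A k := by
  have h : |∑ j, f (x j)| ≤ k * A :=
    (abs_sum_le_sum_abs _ _).trans ((sum_le_sum fun j _ => hf.b0 _).trans_eq (by simp))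
  rw [wC, ← Real.exp_neg]
  exact ⟨Real.exp_le_exp.2 (abs_le.1 h).1, Real.exp_le_exp.2 (abs_le.1 h).2⟩

lemma continuous_wt (hf : Smooth f A) : Continuous (wt f : (Fin k → ℝ) → ℝ) := by
  have := hf.d0.continuous
  unfold wt
  fun_prop

lemma abs_wt_le (hf : Smooth f A) (x : Fin k → ℝ) : |wt f x| ≤ wC A k := by
  rw [abs_of_pos (show 0 < wt f x from Real.exp_pos _)]
  exact (wt_mem hf x).2

lemma continuous_hw (hf : Smooth f A) : Continuous (hw f A : (Fin k → ℝ) → ℝ) :=
  continuous_const.sub ((continuous_wt hf).div_const _)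

lemma hw_mem (hf : Smooth f A) (x : Fin k → ℝ) : 0 ≤ hw f A x ∧ hw f A x ≤ 1 := by
  obtain ⟨h1, h2⟩ := one_sub_div_mem (one_le_wC hf k) (wt_mem hf x).1 (wt_mem hf x).2
  exact ⟨h1, h2.trans (gq_mem (one_le_wC hf k)).2.le⟩

lemma abs_hw_le (hf : Smooth f A) (x : Fin k → ℝ) : |hw f A x| ≤ 1 := by
  rw [abs_of_nonneg (hw_mem hf x).1]
  exact (hw_mem hf x).2

lemma continuous_fac {o : Obs n} (ho : o.Good) (l : Fin n) : Continuous (fac o l) := by
  obtain ⟨h1, h2, -⟩ := ho
  unfold fac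
  split_ifs <;> fun_prop

lemma prod_fac (o : Obs n) (s : Fin n → ℝ) : ∏ l, fac o l (s l) = o.eval s := by
  unfold fac Obs.eval
  by_cases hab : o.a = o.b
  · simp [hab]
  · rw [Finset.prod_eq_mul o.a o.b hab (fun c _ hc => by simp [hab, hc.1, hc.2]) (by simp) (by simp)]
    simp [hab, Ne.symm hab]

lemma abs_fac_le {o : Obs n} {C : ℝ} (hC : ∀ z, |o.h z| ≤ C ∧ |o.h' z| ≤ C) (l : Fin n) (z : ℝ) :
    |fac o l z| ≤ (1 + C) ^ 2 := by
  have hC0 : 0 ≤ C := (abs_nonneg _).trans (hC z).1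
  have h1 : 1 ≤ (1 + C) ^ 2 := one_le_pow₀ (by linarith)
  have hle : ∀ w, |w| ≤ C → |w| ≤ (1 + C) ^ 2 := fun w hw =>
    hw.trans ((le_add_of_nonneg_left zero_le_one).trans (le_self_pow₀ (by linarith) two_ne_zero))
  unfold fac
  split_ifs
  · rw [abs_mul, sq]
    exact mul_le_mul ((hC z).1.trans (by linarith)) ((hC z).2.trans (by linarith)) (abs_nonneg _)
      (by linarith)
  · simpa using h1
  · exact hle _ (hC z).1
  · exact hle _ (hC z).2
  · simpa using h1

lemma bar_fac (hf : Smooth f A) (o : Obs n) (δ : ℝ) (l : Fin n) (x : ℝ) :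
    bar f δ (fac o l) x = o.barAt f δ l x := by
  have hpos : 0 < ∫ η, Real.exp (f (x + Real.sqrt δ * η)) ∂gaussianReal 0 1 := by
    have := hf.d0.continuous
    refine integral_exp_pos (Integrable.of_bound (by fun_prop) (Real.exp A)
      (Filter.Eventually.of_forall fun η => ?_))
    rw [Real.norm_eq_abs, abs_of_pos (Real.exp_pos _), Real.exp_le_exp]
    exact (le_abs_self _).trans (hf.b0 _)
  unfold fac Obs.barAt
  split_ifs <;> first | rfl | (simp only [bar, mul_one]; exact div_self hpos.ne')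

/-- A common bound for the factors. -/
lemma exists_psi_bound (hf : Smooth f A) {o : Fin k → Obs n} (ho : ∀ j, (o j).Good) :
    ∃ B, 0 < B ∧ ∀ l x, |psi f B o l x| ≤ 1 := by
  choose C hC using fun j => (ho j).2.2
  have hC0 : ∀ j, 0 < (1 + C j) ^ 2 := fun j => by
    have := (abs_nonneg _).trans (hC j 0).1
    positivity
  have hw0 : 0 < wC A k := Real.exp_pos _
  refine ⟨wC A k * ∏ j, (1 + C j) ^ 2, mul_pos hw0 (prod_pos fun j _ => hC0 j), fun l x => ?_⟩
  rw [psi, abs_div, abs_of_pos (mul_pos hw0 (prod_pos fun j _ => hC0 j)),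
    div_le_one (mul_pos hw0 (prod_pos fun j _ => hC0 j)), abs_mul, abs_prod]
  exact mul_le_mul (abs_wt_le hf x)
    (prod_le_prod (fun j _ => abs_nonneg _) fun j _ => abs_fac_le (hC j) l _)
    (prod_nonneg fun j _ => abs_nonneg _) hw0.le

lemma continuous_psi (hf : Smooth f A) {o : Fin k → Obs n} (ho : ∀ j, (o j).Good) (B : ℝ)
    (l : Fin n) : Continuous (psi f B o l) :=
  ((continuous_wt hf).mul (continuous_finsetProd _ fun j _ =>
    (continuous_fac (ho j) l).comp (continuous_apply j))).div_const B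

lemma prod_psi (B : ℝ) (o : Fin k → Obs n) (S : Fin k → Fin n → ℝ) :
    ∏ l, psi f B o l (fun j => S j l) =
      (∏ l, wt f fun j => S j l) * (∏ j, (o j).eval (S j)) / B ^ n := by
  simp only [psi, prod_div_distrib, prod_mul_distrib, prod_const, card_univ, Fintype.card_fin]
  rw [Finset.prod_comm (f := fun l j => fac (o j) l (S j l))]
  simp only [prod_fac]

/-! ### Innermost averages -/

lemma integrable_bdd {α : Type*} [MeasurableSpace α] {μ : Measure α} [IsProbabilityMeasure μ]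
    {g : α → ℝ} (hg : Measurable g) {K : ℝ} (hK : ∀ a, |g a| ≤ K) : Integrable g μ :=
  Integrable.of_bound hg.aestronglyMeasurable K
    (Filter.Eventually.of_forall fun a => (Real.norm_eq_abs _).trans_le (hK a))

lemma abs_sm_le {Ψ : (Fin k → ℝ) → ℝ} {K : ℝ} (hK : ∀ x, |Ψ x| ≤ K) (δ : ℝ) (x : Fin k → ℝ) :
    |sm δ Ψ x| ≤ K := by
  rw [← Real.norm_eq_abs]
  refine (norm_integral_le_of_norm_le_const (C := K)
    (Filter.Eventually.of_forall fun z => ?_)).trans_eq (by rw [probReal_univ, mul_one])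
  exact hK _

lemma continuous_sm {Ψ : (Fin k → ℝ) → ℝ} (hΨ : Continuous Ψ) {K : ℝ} (hK : ∀ x, |Ψ x| ≤ K)
    (δ : ℝ) : Continuous (sm δ Ψ) := by
  refine continuous_of_dominated (bound := fun _ => K) (fun x => ?_) (fun x => ?_)
    (integrable_const _) (Filter.Eventually.of_forall fun z => ?_)
  · exact (hΨ.comp (by fun_prop)).aestronglyMeasurable
  · exact Filter.Eventually.of_forall fun z => hK _
  · exact hΨ.comp (by fun_prop)

lemma sm_wt (hf : Smooth f A) (δ : ℝ) (x : Fin k → ℝ) :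
    sm δ (wt f) x = ∏ j, Real.exp (topMean f δ (x j)) := by
  have e : (wt f : (Fin k → ℝ) → ℝ) = fun y => ∏ j, Real.exp (f (y j)) :=
    funext fun y => Real.exp_sum _ _
  rw [e, sm_prod δ (fun _ z => Real.exp (f z))]
  refine prod_congr rfl fun j _ => (Real.exp_log (integral_exp_pos ?_)).symm
  have := hf.d0.continuous
  refine integrable_bdd (by fun_prop) (K := Real.exp A) fun η => ?_
  rw [abs_of_pos (Real.exp_pos _), Real.exp_le_exp]
  exact (le_abs_self _).trans (hf.b0 _)

lemma sm_hw (hf : Smooth f A) (δ : ℝ) (x : Fin k → ℝ) :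
    sm δ (hw f A) x = 1 - sm δ (wt f) x / wC A k := by
  have hi : Integrable (fun z => wt f (fun j => x j + Real.sqrt δ * z j) / wC A k) (gam (Fin k)) :=
    (integrable_bdd ((continuous_wt hf).measurable.comp (by fun_prop)) (K := wC A k) fun z =>
      abs_wt_le hf _).div_const _
  unfold sm hw
  rw [integral_sub (integrable_const _) hi, integral_div]
  simp

lemma sm_psi (hf : Smooth f A) (B δ : ℝ) (o : Fin k → Obs n) (l : Fin n) (x : Fin k → ℝ) :
    sm δ (psi f B o l) x =
      (sm δ (wt f) x * ∏ j, (o j).barAt f δ l (x j)) / B := by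
  have e : psi f B o l = fun y => (∏ j, Real.exp (f (y j)) * fac (o j) l (y j)) / B :=
    funext fun y => by rw [psi, wt, Real.exp_sum, prod_mul_distrib]
  have e2 : sm δ (psi f B o l) x =
      sm δ (fun y => ∏ j, Real.exp (f (y j)) * fac (o j) l (y j)) x / B := by
    rw [e]; exact integral_div _ _
  rw [e2, sm_prod δ (fun j z => Real.exp (f z) * fac (o j) l z), sm_wt hf, ← prod_mul_distrib]
  congr 1
  refine prod_congr rfl fun j _ => ?_
  have hpos : 0 < ∫ η, Real.exp (f (x j + Real.sqrt δ * η)) ∂gaussianReal 0 1 := by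
    have := hf.d0.continuous
    refine integral_exp_pos (integrable_bdd (by fun_prop) (K := Real.exp A) fun η => ?_)
    rw [abs_of_pos (Real.exp_pos _), Real.exp_le_exp]
    exact (le_abs_self _).trans (hf.b0 _)
  rw [← bar_fac hf, topMean, Real.exp_log hpos, bar, mul_div_cancel₀ _ hpos.ne']

lemma sm_wt_mem (hf : Smooth f A) (δ : ℝ) (x : Fin k → ℝ) :
    (wC A k)⁻¹ ≤ sm δ (wt f) x ∧ sm δ (wt f) x ≤ wC A k := by
  have hi : Integrable (fun z => wt f fun j => x j + Real.sqrt δ * z j) (gam (Fin k)) :=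
    integrable_bdd ((continuous_wt hf).measurable.comp (by fun_prop)) (K := wC A k) fun z =>
      abs_wt_le hf _
  constructor
  · simpa [sm] using integral_mono (integrable_const _) hi fun z => (wt_mem hf _).1
  · simpa [sm] using integral_mono hi (integrable_const _) fun z => (wt_mem hf _).2

variable {ξ : Path}

lemma leafY_eq (hf : Smooth f A) (g₀ : Fin k → ℝ) (η : Fin ξ.r → Fin k → ℝ) :
    leafY ξ f g₀ η = sm (1 - ξ.q (Fin.last ξ.r)) (wt f) (leafX ξ g₀ η) :=
  (sm_wt hf _ _).symm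

lemma continuous_leafY (hf : Smooth f A) :
    Continuous fun z : (Fin k → ℝ) × (Fin ξ.r → Fin k → ℝ) => leafY ξ f z.1 z.2 := by
  simp only [leafY_eq hf]
  exact (continuous_sm (continuous_wt hf) (K := wC A k) (abs_wt_le hf) _).comp
      (continuous_leafX ξ)

lemma bdd_leafY (hf : Smooth f A) (g₀ : Fin k → ℝ) : Bdd (wC A k) (leafY ξ f g₀) :=
  ⟨Real.exp_pos _, ((continuous_leafY hf).comp (Continuous.prodMk continuous_const
      continuous_id)).measurable,
    fun η => by rw [leafY_eq hf]; exact sm_wt_mem hf _ _⟩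

lemma sm_hw_leaf (hf : Smooth f A) (g₀ : Fin k → ℝ) :
    (fun η => sm (1 - ξ.q (Fin.last ξ.r)) (hw f A) (leafX ξ g₀ η)) =
      fun η => 1 - leafY ξ f g₀ η / wC A k :=
  funext fun η => by rw [sm_hw hf, leafY_eq hf]

lemma exps (ξ : Path) : Exps ξ.m := ⟨ξ.isPath.pos, ξ.isPath.lt_one, ξ.isPath.strictMono⟩

end Vale.Agent.P157.Parisi.Cont
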