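import Vale.Agent.P157.Parisi.Cont.Obs
import Vale.Agent.P157.Parisi.Cont.State
import Vale.Agent.P157.Parisi.ModA.TiltFactor

/-!
Fresh-pattern means of a cascade as series of tree means.
-/

noncomputable section

open MeasureTheory ProbabilityTheory Filter Finset
open scoped BigOperators Topology

namespace Vale.Agent.P157.Parisi.Cont

open Vale.Agent.P168 (Shape shapeMarks shapeRep shapeProb genNested treeMoment)
open Vale.Agent.P168.Cascade

variable {f : ℝ → ℝ} {A : ℝ} {k n M : ℕ} {ξ : Path}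

lemma measurable_leafMarks (v : Shape ξ.r M) {g : (Fin k → ℝ) → ℝ} (hg : Continuous g) (a : Fin M) :
    Measurable fun z : (Fin k → ℝ) × (Fin ξ.r → Fin M → Fin k → ℝ) =>
      g (leafX ξ z.1 (shapeMarks v z.2 a)) :=
  hg.measurable.comp ((continuous_leafX ξ).measurable.comp
    (measurable_fst.prodMk ((measurable_shapeMarks v a).comp measurable_snd)))

lemma measurable_logW_leaf (hf : Smooth f A) (v : Shape ξ.r M) :
    Measurable fun z : (Fin k → ℝ) × (Fin ξ.r → Fin M → Fin k → ℝ) =>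
      logW (gam (Fin k)) ξ.m (leafY ξ f z.1) v z.2 := by
  have hY : Measurable fun z : (Fin k → ℝ) × (Fin ξ.r → Fin k → ℝ) => leafY ξ f z.1 z.2 :=
    (continuous_leafY hf).measurable
  have hY' : Measurable (Function.uncurry
      fun (z : (Fin k → ℝ) × (Fin ξ.r → Fin M → Fin k → ℝ)) => leafY ξ f z.1) :=
    Measurable.comp (g := fun z : (Fin k → ℝ) × (Fin ξ.r → Fin k → ℝ) => leafY ξ f z.1 z.2)
      (f := fun w : ((Fin k → ℝ) × (Fin ξ.r → Fin M → Fin k → ℝ)) × (Fin ξ.r → Fin k → ℝ) =>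
        (w.1.1, w.2)) hY ((measurable_fst.comp measurable_fst).prodMk measurable_snd)
  have hy : ∀ a, Measurable fun z : (Fin k → ℝ) × (Fin ξ.r → Fin M → Fin k → ℝ) =>
      leafY ξ f z.1 (shapeMarks v z.2 a) := fun a =>
    Measurable.comp (g := fun z : (Fin k → ℝ) × (Fin ξ.r → Fin k → ℝ) => leafY ξ f z.1 z.2)
      (f := fun z : (Fin k → ℝ) × (Fin ξ.r → Fin M → Fin k → ℝ) => (z.1, shapeMarks v z.2 a))
      hY (measurable_fst.prodMk ((measurable_shapeMarks v a).comp measurable_snd))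
  have h : ∀ i a, Measurable fun z : (Fin k → ℝ) × (Fin ξ.r → Fin M → Fin k → ℝ) =>
      cond (gam (Fin k)) ξ.m (leafY ξ f z.1) i (shapeMarks v z.2 a) := fun i a =>
    measurable_cond (gam (Fin k)) ξ.m i (δ := (Fin k → ℝ) × (Fin ξ.r → Fin M → Fin k → ℝ))
      (Y := fun z => leafY ξ f z.1) (ρ := fun z => shapeMarks v z.2 a) hY'
      ((measurable_shapeMarks v a).comp measurable_snd)
  exact (Finset.measurable_sum _ fun p _ => Finset.measurable_sum _ fun a _ =>
      ((h _ a).log.sub (h _ a).log).const_mul _).sub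
    (Finset.measurable_sum _ fun a _ => (hy a).log)

lemma abs_integral_le' {α : Type*} [MeasurableSpace α] {μ : Measure α} [IsProbabilityMeasure μ]
    {g : α → ℝ} {K : ℝ} (hK : ∀ a, |g a| ≤ K) : |∫ a, g a ∂μ| ≤ K := by
  rw [← Real.norm_eq_abs]
  exact (norm_integral_le_of_norm_le_const (C := K) (Eventually.of_forall hK)).trans_eq
    (by rw [probReal_univ, mul_one])

lemma integrable_table (v : Shape ξ.r M)
    {H : (Fin k → ℝ) × (Fin ξ.r → Fin M → Fin k → ℝ) → ℝ} (hH : Measurable H) {K : ℝ}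
    (hK : ∀ z, |H z| ≤ K) :
    Integrable (fun g₀ => ∫ ω, H (g₀, ω) ∂tableLaw (gam (Fin k)) ξ.r M) (gam (Fin k)) :=
  integrable_bdd hH.stronglyMeasurable.integral_prod_right'.measurable
    fun g₀ => abs_integral_le' fun ω => hK _

lemma gram_restr (v : Shape ξ.r (n + M)) :
    ξ.gram (restr (Fin.castAdd M) v) = restrM (ξ.gram v) := by
  funext a b
  simp only [Path.gram, restr, restrM, (Fin.castAdd_injective n M).eq_iff]

lemma abs_gram_le (v : Shape ξ.r M) (a b : Fin M) : |ξ.gram v a b| ≤ 1 := by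
  unfold Path.gram
  split_ifs
  · simp
  · rw [abs_of_nonneg (ξ.isPath.nonneg.trans (ξ.isPath.mono (Fin.zero_le _)))]
    exact (ξ.isPath.mono (Fin.le_last _)).trans ξ.isPath.le_one

/-- Leaf fields averaged out on every tree. -/
lemma integral_leaves (hP : ∀ {v : Shape ξ.r M}, shapeProb ξ.m M v ≠ 0 → IsTree v)
    {Ψ : Fin M → (Fin k → ℝ) → ℝ} (hΨ : ∀ l, Continuous (Ψ l)) (hb : ∀ l x, |Ψ l x| ≤ 1)
    (G : Shape ξ.r M → ℝ) {Φ : (Fin M → Fin M → ℝ) → ℝ}
    (hΦ : ∀ {τ : Type} [Fintype τ] (v : Fin M → τ → ℝ), (∀ a, dot (v a) (v a) ≤ 1) →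
      Φ (gramOf v) = expVal (prodΘ Ψ) v) :
    ∫ g₀, (∑ v, shapeProb ξ.m M v * G v * ∫ ω, ∏ a, sm (1 - ξ.q (Fin.last ξ.r)) (Ψ a)
        (leafX ξ g₀ (shapeMarks v ω a)) ∂tableLaw (gam (Fin k)) ξ.r M) ∂gam (Fin k) =
      ∑ v, shapeProb ξ.m M v * (G v * Φ (ξ.gram v)) := by
  set δ := 1 - ξ.q (Fin.last ξ.r)
  have hb' : ∀ a x, |sm δ (Ψ a) x| ≤ 1 := fun a x => abs_sm_le (hb a) δ x
  have hi : ∀ v : Shape ξ.r M, Integrable (fun g₀ => ∫ ω, ∏ a, sm δ (Ψ a)
      (leafX ξ g₀ (shapeMarks v ω a)) ∂tableLaw (gam (Fin k)) ξ.r M) (gam (Fin k)) := fun v =>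
    integrable_table v (H := fun z => ∏ a, sm δ (Ψ a) (leafX ξ z.1 (shapeMarks v z.2 a)))
      (Finset.measurable_prod _ fun a _ => measurable_leafMarks v (continuous_sm (hΨ a) (hb a) δ) a)
      (K := 1) fun z => by
        rw [abs_prod]; exact prod_le_one (fun a _ => abs_nonneg _) fun a _ => hb' a _
  rw [integral_finsetSum _ fun v _ => (hi v).const_mul _]
  refine sum_congr rfl fun v _ => ?_
  rw [integral_const_mul]
  by_cases h0 : shapeProb ξ.m M v = 0
  · simp [h0]
  have hv := hP h0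
  rw [← gramOf_treeVec hv, hΦ _ fun a => ?_, expVal_treeVec v Ψ hΨ hb]
  · ring
  · refine (congrFun (congrFun (gramOf_treeVec (ξ := ξ) hv) a) a).trans_le (le_of_eq ?_)
    simp [Path.gram]

/-- Fresh-pattern means of a cascade as series of tree means. -/
theorem abs_treePat_sub_series_le (hT : TiltFactorStmt) (hTS : TreeShapeStmt) (hf : Smooth f A)
    (ξ : Path) {F : (Fin (n + 1) → Fin (n + 1) → ℝ) → ℝ}
    {K : ℝ} (hK : ∀ O, (∀ a b, |O a b| ≤ 1) → |F O| ≤ K) {o : Fin k → Obs (n + 1)}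
    (ho : ∀ j, (o j).Good) {B : ℝ} (hB : 0 < B) (hψ : ∀ l x, |psi f B o l x| ≤ 1)
    {Φ : ∀ d, (Fin (n + 1 + d) → Fin (n + 1 + d) → ℝ) → ℝ}
    (hΦ : ∀ d {τ : Type} [Fintype τ] (v : Fin (n + 1 + d) → τ → ℝ), (∀ a, dot (v a) (v a) ≤ 1) →
      Φ d (gramOf v) = expVal (prodΘ (Fin.append (psi f B o) fun _ : Fin d => hw f A)) v)
    (D : ℕ) :
    |ξ.treePat f F o - B ^ (n + 1) * ∑ d ∈ range D, coefW (wC A k) n d *
        ξ.treeExp (n + 1 + d) (fun O => F (restrM O) * Φ d O)| ≤
      B ^ (n + 1) * (K * tailW (wC A k) n D) := by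
  set δ := 1 - ξ.q (Fin.last ξ.r) with hδ
  set C := wC A k with hCdef
  have hC : 1 ≤ C := one_le_wC hf k
  have hm := exps ξ
  set ν := gam (Fin k)
  have hψc := continuous_psi hf ho B
  let g : (Fin k → ℝ) → Fin (n + 1) → (Fin ξ.r → Fin k → ℝ) → ℝ := fun g₀ a η =>
    sm δ (psi f B o a) (leafX ξ g₀ η)
  have hgm : ∀ g₀ a, Measurable (g g₀ a) := fun g₀ a =>
    ((continuous_sm (hψc a) (hψ a) δ).comp ((continuous_leafX ξ).comp
      (Continuous.prodMk continuous_const continuous_id))).measurable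
  have hgb : ∀ g₀ a η, |g g₀ a η| ≤ 1 := fun g₀ a η => abs_sm_le (hψ a) δ _
  let G : Shape ξ.r (n + 1) → ℝ := fun v => F (ξ.gram v)
  have hG : ∀ v, |G v| ≤ K := fun v => hK _ (abs_gram_le v)
  -- the tilted side
  have hiv : ∀ v : Shape ξ.r (n + 1), Integrable
      (fun g₀ => ∫ ω, integrand ν ξ.m (leafY ξ f g₀) (g g₀) v ω ∂tableLaw ν ξ.r (n + 1)) ν :=
    fun v => integrable_table v
      (H := fun z => integrand ν ξ.m (leafY ξ f z.1) (g z.1) v z.2)
      ((measurable_logW_leaf hf v).exp.mul (Finset.measurable_prod _ fun a _ =>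
        measurable_leafMarks v (continuous_sm (hψc a) (hψ a) δ) a))
      fun z => abs_integrand_le ν hm (bdd_leafY hf z.1) (hgb z.1) v z.2
  have htilt : ∫ g₀, tiltG ν ξ.m (leafY ξ f g₀) (g g₀) G ∂ν =
      ξ.treePat f F o / B ^ (n + 1) := by
    simp only [tiltG]
    rw [integral_finsetSum _ fun v _ => (hiv v).const_mul _, Path.treePat, sum_div]
    refine sum_congr rfl fun v _ => ?_
    rw [integral_const_mul]
    by_cases h0 : shapeProb ξ.m (n + 1) v = 0
    · simp [h0]
    have h := hTS f A hf ξ k (n + 1) o ho v (isTree_of_prob h0)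
    rw [mul_div_assoc, mul_assoc, mul_div_assoc, ← h, ← integral_div]
    congr 2
    refine integral_congr_ae (Eventually.of_forall fun g₀ => ?_)
    beta_reduce
    rw [← integral_div]
    refine integral_congr_ae (Eventually.of_forall fun ω => ?_)
    simp only [integrand, g, sm_psi hf, leafY_eq hf, ← hδ, prod_div_distrib, prod_const, card_univ,
      Fintype.card_fin]
    rw [mul_div_assoc]
    rfl
  -- the series
  set χ := fun d => Fin.append (psi f B o) fun _ : Fin d => (hw f A : (Fin k → ℝ) → ℝ) with hχ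
  have hχc : ∀ d l, Continuous (χ d l) := fun d l => by
    induction l using Fin.addCases <;> simp [hχ, hψc, continuous_hw hf]
  have hχb : ∀ d l x, |χ d l x| ≤ 1 := fun d l x => by
    induction l using Fin.addCases <;> simp [hχ, hψ, abs_hw_le hf]
  have e : ∀ (d : ℕ) (g₀ : Fin k → ℝ) (a : Fin (n + 1 + d)),
      Fin.append (g g₀) (fun _ : Fin d => fun η => 1 - leafY ξ f g₀ η / C) a =
        fun η => sm δ (χ d a) (leafX ξ g₀ η) := fun d g₀ a => by
    rw [← sm_hw_leaf hf]
    induction a using Fin.addCases <;> simp [g, hχ, hδ]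
  have hterm : ∀ d, ∫ g₀, termG ν ξ.m (fun η => 1 - leafY ξ f g₀ η / C) (g g₀) G d ∂ν =
      ξ.treeExp (n + 1 + d) (fun O => F (restrM O) * Φ d O) := fun d => by
    simp only [termG, e]
    rw [integral_leaves (fun h => isTree_of_prob h) (hχc d) (hχb d)
      (fun v => G (restr (Fin.castAdd d) v)) (hΦ d), Path.treeExp]
    simp only [G, gram_restr]
  have hit : ∀ d, Integrable
      (fun g₀ => coefW C n d * termG ν ξ.m (fun η => 1 - leafY ξ f g₀ η / C) (g g₀) G d) ν :=
    fun d => by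
      simp only [termG, e]
      refine Integrable.const_mul (integrable_finsetSum _ fun v _ => Integrable.const_mul
        (integrable_table v (H := fun z => ∏ a, sm δ (χ d a) (leafX ξ z.1 (shapeMarks v z.2 a)))
          (Finset.measurable_prod _ fun a _ =>
            measurable_leafMarks v (continuous_sm (hχc d a) (hχb d a) δ) a)
          (K := 1) fun z => ?_) _) _
      rw [abs_prod]
      exact prod_le_one (fun a _ => abs_nonneg _) fun a _ => abs_sm_le (hχb d a) δ _
  have hi0 : Integrable (fun g₀ => tiltG ν ξ.m (leafY ξ f g₀) (g g₀) G) ν :=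
    integrable_finsetSum _ fun v _ => (hiv v).const_mul _
  have e0 : ξ.treePat f F o = B ^ (n + 1) * (ξ.treePat f F o / B ^ (n + 1)) :=
    (mul_div_cancel₀ _ (pow_pos hB _).ne').symm
  rw [e0, ← htilt, ← mul_sub, abs_mul, abs_of_pos (pow_pos hB _)]
  refine mul_le_mul_of_nonneg_left ?_ (pow_pos hB _).le
  simp only [← hterm, ← integral_const_mul]
  rw [← integral_finsetSum _ fun d _ => hit d,
    ← integral_sub hi0 (integrable_finsetSum _ fun d _ => hit d)]
  exact abs_integral_le' fun g₀ =>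
    abs_tiltG_sub_series_le ν hT hm hC (bdd_leafY hf g₀) (hgm g₀) (hgb g₀) hG D

/-! ### The logarithm -/

lemma continuous_topMean (hf : Smooth f A) (δ : ℝ) : Continuous (topMean f δ) := by
  have := hf.d0.continuous
  have hb : ∀ x η, |Real.exp (f (x + Real.sqrt δ * η))| ≤ Real.exp A := fun x η => by
    rw [abs_of_pos (Real.exp_pos _), Real.exp_le_exp]
    exact (le_abs_self _).trans (hf.b0 _)
  refine Continuous.log ?_ fun x => (integral_exp_pos (integrable_bdd (by fun_prop) (hb x))).ne'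
  refine continuous_of_dominated (bound := fun _ => Real.exp A) (fun x => ?_)
    (fun x => Eventually.of_forall fun η => hb x η) (integrable_const _)
    (Eventually.of_forall fun η => ?_)
  · exact (Continuous.aestronglyMeasurable (by fun_prop))
  · fun_prop

lemma exp_topMean_mem (hf : Smooth f A) (δ x : ℝ) :
    Real.exp (-A) ≤ Real.exp (topMean f δ x) ∧ Real.exp (topMean f δ x) ≤ Real.exp A := by
  have h := sm_wt_mem (k := 1) hf δ fun _ => x
  simpa [sm_wt hf, wC, Real.exp_neg] using h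

lemma abs_topMean_le (hf : Smooth f A) (δ x : ℝ) : |topMean f δ x| ≤ A :=
  abs_le.2 ⟨Real.exp_le_exp.1 (exp_topMean_mem hf δ x).1,
    Real.exp_le_exp.1 (exp_topMean_mem hf δ x).2⟩

/-- The pattern value as a series of tree means. -/
theorem abs_patValue_sub_series_le (hBr : BridgeStmt) (hf : Smooth f A) (ξ : Path)
    {Φ : ∀ d, (Fin (d + 1) → Fin (d + 1) → ℝ) → ℝ}
    (hΦ : ∀ d {τ : Type} [Fintype τ] (v : Fin (d + 1) → τ → ℝ), (∀ a, dot (v a) (v a) ≤ 1) →
      Φ d (gramOf v) = expVal (prodΘ fun _ : Fin (d + 1) => (hw f A : (Fin k → ℝ) → ℝ)) v)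
    (D : ℕ) :
    |(k : ℝ) * patValue f ξ.m ξ.q - (Real.log (wC A k) -
        ∑ d ∈ range D, ξ.treeExp (d + 1) (Φ d) / (d + 1))| ≤
      gq (wC A k) ^ (D + 1) / (1 - gq (wC A k)) := by
  set δ := 1 - ξ.q (Fin.last ξ.r) with hδ
  set C := wC A k with hCdef
  have hC : 1 ≤ C := one_le_wC hf k
  have hm := exps ξ
  set ν := gam (Fin k)
  let L : ℝ → ℝ := fun x => level ξ.m ξ.q (ξ.top f) 0 (Real.sqrt (ξ.q 0) * x)
  let Y₁ : ℝ → (Fin ξ.r → ℝ) → ℝ := fun x η => Real.exp (ξ.top f (pathField ξ.q x η))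
  have hY₁c : Continuous fun z : ℝ × (Fin ξ.r → ℝ) => Y₁ z.1 z.2 := by
    refine Real.continuous_exp.comp ((continuous_topMean hf _).comp ?_)
    unfold pathField
    fun_prop
  have hY₁ : ∀ x, genNested (gaussianReal 0 1) ξ.m (Y₁ x) = Real.exp (L x) := fun x =>
    (hBr ξ.r ξ.m ξ.q ξ.isPath (ξ.top f) (ξ.top f) A (continuous_topMean hf _)
      (continuous_topMean hf _) (abs_topMean_le hf _) (abs_topMean_le hf _) x 0).1
  have hLog : ∀ g₀ : Fin k → ℝ,
      Real.log (genNested ν ξ.m (leafY ξ f g₀)) = ∑ j, L (g₀ j) := fun g₀ => by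
    have h := genNested_pi (gaussianReal 0 1) ξ.m (fun j => Y₁ (g₀ j))
      fun j η => (Real.exp_pos _).le
    rw [show genNested ν ξ.m (leafY ξ f g₀) = ∏ j, genNested (gaussianReal 0 1) ξ.m (Y₁ (g₀ j))
      from h]
    simp only [hY₁, ← Real.exp_sum, Real.log_exp]
  have hLb : ∀ x, |L x| ≤ A := fun x => by
    have hA : 0 < Real.exp A := Real.exp_pos _
    obtain ⟨h1, h2⟩ := genNested_mem (gaussianReal 0 1) (C := Real.exp A) hA hm
      (Y := Y₁ x) (hY₁c.comp (Continuous.prodMk continuous_const continuous_id)).measurable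
      fun η => by rw [← Real.exp_neg]; exact exp_topMean_mem hf _ _
    rw [hY₁, ← Real.exp_neg] at h1
    rw [hY₁] at h2
    exact abs_le.2 ⟨Real.exp_le_exp.1 h1, Real.exp_le_exp.1 h2⟩
  have hLm : Measurable L := by
    have e : L = fun x => Real.log (genNested (gaussianReal 0 1) ξ.m (Y₁ x)) :=
      funext fun x => by rw [hY₁, Real.log_exp]
    rw [e]
    exact (measurable_genNested (gaussianReal 0 1) ξ.m (Y := Y₁) hY₁c.measurable).log
  have hval : ∫ g₀, Real.log (genNested ν ξ.m (leafY ξ f g₀)) ∂ν =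
      (k : ℝ) * patValue f ξ.m ξ.q := by
    simp only [hLog]
    have hij : ∀ j, Integrable (fun g₀ : Fin k → ℝ => L (g₀ j)) ν := fun j =>
      integrable_bdd (hLm.comp (measurable_pi_apply j)) fun g₀ => hLb (g₀ j)
    rw [integral_finsetSum _ fun j _ => hij j]
    have : ∀ j : Fin k, ∫ g₀, L (g₀ j) ∂ν = patValue f ξ.m ξ.q := fun j =>
      (integral_comp_eval (μ := fun _ : Fin k => gaussianReal 0 1) (i := j) (f := L)
        hLm.aestronglyMeasurable).trans rfl
    simp [this]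
  have eh : ∀ (g₀ : Fin k → ℝ) (η : Fin ξ.r → Fin k → ℝ), 1 - leafY ξ f g₀ η / C =
      sm δ (hw f A) (leafX ξ g₀ η) := fun g₀ η => (congrFun (sm_hw_leaf hf g₀) η).symm
  have hterm : ∀ d, ∫ g₀, treeMoment ν ξ.m (fun _ : Fin (d + 1) => fun η => 1 - leafY ξ f g₀ η / C)
      ∂ν = ξ.treeExp (d + 1) (Φ d) := fun d => by
    have h := integral_leaves (ξ := ξ) (M := d + 1) (fun h => isTree_of_prob h)
      (fun _ : Fin (d + 1) => continuous_hw (k := k) hf) (fun _ => abs_hw_le hf) (fun _ => 1) (hΦ d)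
    simp only [mul_one, one_mul] at h
    rw [Path.treeExp, ← h]
    simp only [eh, treeMoment, tableLaw, ν, hδ]
  have hit : ∀ d : ℕ, Integrable (fun g₀ =>
      treeMoment ν ξ.m (fun _ : Fin (d + 1) => fun η => 1 - leafY ξ f g₀ η / C) / ((d : ℝ) + 1))
      ν := fun d => by
    simp only [eh, treeMoment]
    refine Integrable.div_const (integrable_finsetSum _ fun v _ => Integrable.const_mul
      (integrable_table v (H := fun z : (Fin k → ℝ) × (Fin ξ.r → Fin (d + 1) → Fin k → ℝ) =>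
          ∏ a, sm δ (hw f A) (leafX ξ z.1 (shapeMarks v z.2 a)))
        (Finset.measurable_prod _ fun a _ =>
          measurable_leafMarks v (continuous_sm (continuous_hw hf) (abs_hw_le hf) δ) a)
        (K := 1) fun z => ?_) _) _
    rw [abs_prod]
    exact prod_le_one (fun a _ => abs_nonneg _) fun a _ => abs_sm_le (abs_hw_le hf) δ _
  have hi : Integrable (fun g₀ => Real.log (genNested ν ξ.m (leafY ξ f g₀))) ν :=
    integrable_bdd (measurable_genNested ν ξ.m (Y := fun g₀ : Fin k → ℝ => leafY ξ f g₀)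
      (continuous_leafY (ξ := ξ) (k := k) hf).measurable).log fun g₀ =>
      abs_log_le (Real.exp_pos _) (genNested_mem ν (Real.exp_pos _) hm (bdd_leafY hf g₀).meas
        (bdd_leafY hf g₀).mem).1 (genNested_mem ν (Real.exp_pos _) hm (bdd_leafY hf g₀).meas
        (bdd_leafY hf g₀).mem).2
  have hc : Integrable (fun _ : Fin k → ℝ => Real.log C) ν := integrable_const _
  have ec : Real.log C = ∫ _g₀, Real.log C ∂ν := by simp
  rw [← hval]
  simp only [← hterm, ← integral_div]
  rw [← integral_finsetSum _ fun d _ => hit d, ec,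
    ← integral_sub hc (integrable_finsetSum _ fun d _ => hit d),
    ← integral_sub hi (g := fun g₀ => Real.log C - ∑ d ∈ range D,
      treeMoment ν ξ.m (fun _ : Fin (d + 1) => fun η => 1 - leafY ξ f g₀ η / C) / ((d : ℝ) + 1))
      (hc.sub (integrable_finsetSum _ fun d _ => hit d))]
  exact abs_integral_le' fun g₀ => abs_log_sub_series_le ν hm hC (bdd_leafY hf g₀) D

end Vale.Agent.P157.Parisi.Cont
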